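import Crest.Agent.X262.Drop30.Gen
import Crest.Agent.X262.DropP.Main
import Crest.Agent.X262.Vb10.Amal

/-!
# Row 262, DROP (helper30), part 7: `dropStmt`
-/

set_option autoImplicit false
set_option linter.unusedSectionVars false

noncomputable section

namespace Crest.Agent.X262.Drop30

open Crest.Agent.X277 Crest.Agent.X277.BD Crest.Agent.X262.Vb Crest.Agent.X262.Node22 Polynomial
open Crest.Agent.X277.BD.Cyc (Rf plV lnr_plV surj_plV)
open Crest.Agent.X262.Bub96 (hv)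
open Crest.Agent.X262.Wd54 (NP Lat)
open Crest.Agent.X262.Vb.Cfg (GeqN Geq)
open Crest.Agent.X262.Hb (LP)
open IntermediateField (adjoin)

variable {J : Type} [Fintype J] [DecidableEq J] {io : J → Type} [∀ j, Fintype (io j)]
  [∀ j, DecidableEq (io j)] {K L k : Type} [Field K] [Algebra ℂ K] [Field L] [Algebra ℂ L]
  [Field k] [Algebra ℂ k] {I I₁ I₂ M P : Type} [Fintype I] [Fintype I₁] [Fintype I₂] {N : ℕ}
  {d m n : J → ℕ} {V : RZ ℂ K}

theorem eft_adjoin {s : Set K} (hs : s.Finite) : Algebra.EssFiniteType ℂ (adjoin ℂ s) :=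
  IntermediateField.essFiniteType_iff.2 (IntermediateField.fg_adjoin_of_finite hs)

/-- a field generated by a finite family -/
theorem dim_adjoin [Fintype P] (x : P → K) : dim ℂ (adjoin ℂ (Set.range x)) ≤ Fintype.card P ∧
    (Fintype.card P ≤ dim ℂ (adjoin ℂ (Set.range x)) → AlgebraicIndependent ℂ x) := by
  have := eft_adjoin (Set.finite_range x)
  let x' : P → adjoin ℂ (Set.range x) := fun p =>
    ⟨x p, IntermediateField.subset_adjoin _ _ ⟨p, rfl⟩⟩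
  have h1 : adjoin ℂ (Set.range x') = ⊤ := by
    refine IntermediateField.map_injective (adjoin ℂ (Set.range x)).val ?_
    rw [IntermediateField.adjoin_map, ← Set.range_comp, ← AlgHom.fieldRange_eq_map,
      IntermediateField.fieldRange_val]
    rfl
  have : Algebra.IsAlgebraic (Algebra.adjoin ℂ (Set.range x')) (adjoin ℂ (Set.range x)) := by
    rw [← IntermediateField.isAlgebraic_adjoin_iff_top, h1]
    exact ⟨fun y => isAlgebraic_algebraMap (⟨y, trivial⟩ : (⊤ : IntermediateField ℂ _))⟩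
  refine ⟨?_, fun h => ?_⟩
  · have h2 := Algebra.IsAlgebraic.trdeg_le_cardinalMk ℂ (Set.range x')
    rw [trdeg_eq_dim] at h2
    exact_mod_cast h2.trans (Cardinal.mk_range_le.trans_eq (Cardinal.mk_fintype P))
  · have h2 := Algebra.IsAlgebraic.isTranscendenceBasis_of_le_trdeg_of_finite ℂ x'
      (by rw [trdeg_eq_dim, Cardinal.mk_fintype]; exact_mod_cast h)
    exact h2.1.map' (f := (adjoin ℂ (Set.range x)).val) (adjoin ℂ (Set.range x)).val.injective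

/-- finitely generated subfields of the residue field -/
theorem dim_res [Algebra.EssFiniteType ℂ K] [Algebra.EssFiniteType ℂ k] (β : k →ₐ[ℂ] Rf V) :
    dim ℂ k ≤ dim ℂ K ∧ (V.1 ≠ ⊤ → dim ℂ k + 1 ≤ dim ℂ K) := by
  obtain ⟨t, ht⟩ := exists_isTranscendenceBasis ℂ k
  have h1 := ht.cardinalMk_eq_trdeg
  rw [trdeg_eq_dim] at h1
  obtain ⟨e⟩ := Cardinal.mk_eq_nat_iff.1 h1
  choose y hy using fun i : Fin (dim ℂ k) => surj_plV V (β (e.symm i))
  have h2 := (Geo.resInd_iff (lnr_plV V) fun i => (y i).2).2 (by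
    simp only [Pl.r_coe, hy]
    exact (ht.1.comp _ e.symm.injective).map' β.injective)
  exact ⟨h2.le trdeg_eq_dim, fun h => h2.succ_le trdeg_eq_dim V.2 h⟩

/-- congruent independent families -/
theorem mem_of_cong {δ : k →ₐ[ℂ] K} (hV : ∀ t, δ t ∈ V.1) {x : P → k}
    (hx : AlgebraicIndependent ℂ x) {x' : P → K} (h : ∀ p, V.v (x' p - δ (x p)) < 1) :
    ∀ t ∈ adjoin ℂ (Set.range x'), t ∈ V.1 := by
  have h1 := fun p => r_congr (p := plV V) (hV _) (h p)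
  have h2 : (fun p => (plV V).r (x' p)) = Wd.rt δ V hV ∘ x := funext fun p => (h1 p).2
  have h3 := (Geo.resInd_iff (lnr_plV V) fun p => (h1 p).1).2
    (h2 ▸ hx.map' (Wd.rt δ V hV).injective)
  intro t ht
  obtain ⟨r, s, rfl⟩ := (IntermediateField.mem_adjoin_range_iff _ _ _).1 ht
  have h4 : ∀ q : MvPolynomial P ℂ, V.v (MvPolynomial.aeval x' q) ≤ 1 := fun q =>
    RZ.le_one_iff.2 (Geo.r_aeval (lnr_plV V) (fun p => (h1 p).1) q).1
  refine RZ.le_one_iff.1 ?_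
  by_cases hs : s = 0
  · simp [hs]
  · rw [map_div₀, show V.v (MvPolynomial.aeval x' s) = 1 from h3.2 s hs, div_one]
    exact h4 r

theorem v_div_sub {x y x' y' : K} (hx : V.v x ≤ 1) (hy : V.v y = 1) (h1 : V.v (x' - x) < 1)
    (h2 : V.v (y' - y) < 1) : V.v (x' / y' - x / y) < 1 := by
  have h3 : V.v y' = 1 := (v_eq_of_sub_lt (hy ▸ h2)).trans hy
  have h4 : y ≠ 0 := RZ.ne_zero_iff.1 (hy ▸ one_ne_zero)
  have h5 : y' ≠ 0 := RZ.ne_zero_iff.1 (h3 ▸ one_ne_zero)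
  rw [show x' / y' - x / y = ((x' - x) * y - x * (y' - y)) / (y' * y) by field_simp; ring,
    map_div₀, map_mul, h3, hy, mul_one, div_one]
  refine V.v.map_sub_lt ?_ ?_
  · rwa [map_mul, hy, mul_one]
  · rw [map_mul]
    exact (mul_le_of_le_one_left' hx).trans_lt h2

theorem mdim_add [Fintype M] (hd : ∀ j, m j + n j = d j) (i₀ : (j : J) → io j) {a b c : ℕ}
    (h : a + b = Fintype.card M + 2) (ha : 3 ≤ a) (hb : 3 ≤ b)
    (hc : c + dimP io = mdim io m a + mdim io n b) : c = mdim io d (Fintype.card M) - 1 := by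
  have h1 : ∑ j, Fintype.card (io j) * d j =
      ∑ j, Fintype.card (io j) * m j + ∑ j, Fintype.card (io j) * n j := by
    simp only [← hd, mul_add, Finset.sum_add_distrib]
  simp only [mdim, DropP.sum_mdim i₀] at hc ⊢
  omega

theorem three_le [Fintype M] {ξ : Dat io d M K} {p q r : M} (h : Nml ξ p q r) :
    3 ≤ Fintype.card M := by
  have h1 := DropP.card_marks (a := p) (b := q) (c := r)
    (fun e => by subst e; cases h.1.symm.trans h.2.1) (fun e => by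
      subst e; cases h.1.symm.trans h.2.2)
    fun e => by subst e; exact zero_ne_one (Option.some.inj (h.2.1.symm.trans h.2.2))
  omega

theorem exists_unit {Γ : Type} [LinearOrderedCommGroupWithZero Γ] {v : Valuation K Γ} {ι : Type}
    [Fintype ι] {x : ι → K} (h1 : 1 ≤ nv v x) (h2 : ∀ i, v (x i) ≤ 1) : ∃ i, v (x i) = 1 := by
  by_contra h0
  push Not at h0
  exact h1.not_gt ((Finset.sup_lt_iff (bot_le.trans_lt (zero_lt_one' Γ))).2 fun i _ =>
    lt_of_le_of_ne (h2 i) (h0 i))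

theorem exists_nrm2 {M₁ M₂ : Type} (ζ₁ : Dat io m M₁ k) (ζ₂ : Dat io n M₂ k) (N : ℕ) :
    ∃ (L : Type) (_ : Field L) (_ : Algebra ℂ L) (γ : k →ₐ[ℂ] L) (a b : ℕ)
      (ξ₁ : Dat io m (M₁ ⊕ Fin a) L) (ξ₂ : Dat io n (M₂ ⊕ Fin b) L), deg γ ≠ 0 ∧
      ξ₁.res Sum.inl = ζ₁.map γ ∧ ξ₂.res Sum.inl = ζ₂.map γ ∧ ξ₁.NrmUp N ∧ ξ₂.NrmUp N := by
  obtain ⟨L₁, _, _, _, _, _, a, ξ₁, h1, h2⟩ := Bub96.exists_nrm ζ₁ N
  obtain ⟨L₂, _, _, _, _, _, b, ξ₂, h3, h4⟩ :=
    Bub96.exists_nrm (ζ₂.map (IsScalarTower.toAlgHom ℂ k L₁)) N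
  let : Algebra k L₂ := ((algebraMap L₁ L₂).comp (algebraMap k L₁)).toAlgebra
  have : IsScalarTower k L₁ L₂ := IsScalarTower.of_algebraMap_eq fun _ => rfl
  have := Module.Finite.trans (R := k) L₁ L₂
  refine ⟨L₂, inferInstance, inferInstance,
    (IsScalarTower.toAlgHom ℂ L₁ L₂).comp (IsScalarTower.toAlgHom ℂ k L₁), a, b,
    ξ₁.map (IsScalarTower.toAlgHom ℂ L₁ L₂), ξ₂, (Module.finrank_pos (R := k) (M := L₂)).ne', ?_,
    by rw [h3, Vb37.dmap_map], Vb37.nrmUp_map h2 _, h4⟩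
  rw [← Vb37.dmap_res, h1, Vb37.dmap_map]

theorem exists_sub (s : Finset K) : ∃ k : IntermediateField ℂ K, (s : Set K) ⊆ k ∧
    Algebra.EssFiniteType ℂ k ∧ ∀ (ψ : K →ₐ[ℂ] L) (T : Set L), ψ '' s ⊆ T →
      (ψ.comp k.val).fieldRange ≤ adjoin ℂ T :=
  ⟨adjoin ℂ s, IntermediateField.subset_adjoin _ _, eft_adjoin s.finite_toSet, fun ψ T h => by
    rw [AlgHom.fieldRange_eq_map, ← IntermediateField.map_map, ← AlgHom.fieldRange_eq_map,
      IntermediateField.fieldRange_val, IntermediateField.adjoin_map]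
    exact IntermediateField.adjoin.mono _ _ _ h⟩

/-- the reduction of a configuration over a small field is small -/
theorem small_of {α : L →ₐ[ℂ] K} (hα : ∀ x : K, IsAlgebraic α.fieldRange x)
    [Algebra.EssFiniteType ℂ k] (p : LP k K) {z : Cfg io I L} {z' : Cfg io I₁ k}
    (hz : z'.NZ) {g : M → I} {g' : M → I₁} (h : Lat N (z.map α) g (z'.red p.toPl) g')
    {r : ℕ} (h1 : dim ℂ k ≤ r) (h2 : p.V.1 = ⊤ → dim ℂ k < r) : Small io N z g r := by
  classical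
  obtain ⟨s, hs⟩ := DropD.fgStmt N I₁ (Rf p.V) (z'.red (plV p.V))
  obtain ⟨k₁, h3, _, h4⟩ := exists_sub (L := K) s
  obtain ⟨z₀, e1, e2⟩ := hs k₁ h3
  have h5 : GeqN N (z'.red p.toPl) (z₀.map (p.emb.comp k₁.val)) := by
    rw [← Cfg.map_map]
    exact ((Cfg.red_fac p hz).geqN N).trans ((GeqN.of_eq e1 e2).map _)
  obtain ⟨E', α', β', q1, -, -, q4⟩ := DropD.descStmt N M I I₁ L k₁ K α (p.emb.comp k₁.val) z g z₀
    g' (s.image p.emb) hα (h4 _ _ (by rw [Finset.coe_image]; exact Set.subset_union_right))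
    (lat_congr h (Cfg.Geq.rfl.geqN N) h5)
  refine ⟨E', k₁, inferInstance, inferInstance, inferInstance, inferInstance, inferInstance, α', β',
    I₁, inferInstance, z₀, g', q1, ?_, q4⟩
  rw [trdeg_eq_dim, Nat.cast_lt]
  have h6 := dim_res k₁.val
  by_cases h7 : p.V.1 = ⊤
  · exact h6.1.trans_lt (h2 h7)
  · exact (h6.2 h7).trans h1

/-- **DROP** -/
theorem dropStmt : DropStmt io := by
  classical
  intro d N M I K₀ L _ _ _ _ _ _ x₀ o a b e A R B hsh θ ξ g hξ hN W hlt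
  obtain ⟨K, _, _, _, ι₀, V, α, hV, hα, halg, hlift⟩ := DropD.extStmt L W
  set φ : K₀ →ₐ[ℂ] K := ι₀.comp θ with hφ
  set a₀ : K := algebraMap ℂ K A with ha₀
  set ρ : K := φ (B - algebraMap ℂ K₀ A) with hρ'
  set R₀ : K := algebraMap ℂ K (R - A) with hR₀
  have hρ : ρ ≠ 0 := (map_ne_zero φ).2 (sub_ne_zero.2 hsh.ab)
  have hR : V.v R₀ = 1 := V.v_alg (sub_ne_zero.2 hsh.ae)
  have hR' : R₀ ≠ 0 := RZ.ne_zero_iff.1 (hR ▸ one_ne_zero)
  have hρ1 : V.v ρ < V.v R₀ := hR ▸ (Wd.dn_lt_one (α := ι₀)).1 (hV.symm ▸ hlt)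
  have hf : ∀ j i, (ξ.map ι₀).f j i = (x₀.f j i).map (φ : K₀ →+* K) := fun j i => by
    have h6 : ξ.f j i = (x₀.f j i).map (θ : K₀ →+* L) := congrFun (congrFun (congrArg Dat.f hξ) j) i
    rw [dmap_f, h6, Polynomial.map_map]
    rfl
  have hx : ∀ i, (ξ.map ι₀).x (g i) = (x₀.x i).map φ := fun i => by
    have h6 : ξ.x (g i) = (x₀.x i).map θ := congrFun (congrArg Dat.x hξ) i
    rw [dmap_x, h6, Option.map_map]
    rfl
  have hN' := Vb37.nrmUp_map hN ι₀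
  have hG := (red_ext hα (nz_cfg ξ)).geqN N
  rw [← Vb37.cfg_map] at hG
  generalize ξ.map ι₀ = ξ' at hf hx hN' hG
  obtain ⟨ρ1, ρ2, y, h1, h2, h3, h4, h5, hr⟩ := exists_ann hρ hρ1 a₀
    (Finset.univ.biUnion fun j => (Finset.range (2 * Fintype.card (io j))).biUnion
      fun c => (vf (ξ'.f j) c).roots.toFinset)
  choose m n s Pi Po F1 F2 hs hd hS using fun j => exists_sd (a := a₀) (triv V) h1 (h3.trans h4)
    (ξ'.cp.1 j) ((ξ'.cp.2.1 j).imp fun i hi h0 => hi (by rw [h0, coeff_zero]))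
    fun c hc h0 t ht => hr t (Finset.mem_biUnion.2 ⟨j, Finset.mem_univ _, Finset.mem_biUnion.2
      ⟨c, Finset.mem_range.2 hc, Multiset.mem_toFinset.2 ((mem_roots h0).2 ht)⟩⟩)
  have xa : ξ'.x (g a) = some a₀ := by rw [hx, hsh.a]; simp [ha₀]
  have xb : ξ'.x (g b) = some (φ B) := by rw [hx, hsh.b]; rfl
  have xe : ξ'.x (g e) = some (algebraMap ℂ K R) := by rw [hx, hsh.e]; simp
  have xo : ξ'.x (g o) = none := by rw [hx, hsh.o]; rfl
  have eb : φ B - a₀ = ρ := by simp [ha₀, hρ']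
  have ee : algebraMap ℂ K R - a₀ = R₀ := by simp [ha₀, hR₀]
  let S : Set M := {i | Ins V a₀ ρ2 (ξ'.x (g i))}
  have hty : IsTy d m n S o a b e := ⟨hd, ⟨_, xa, by simpa using zero_le.trans_lt h4⟩,
    ⟨_, xb, eb ▸ h2.trans (h3.trans h4)⟩, fun ⟨t, ht, _⟩ => by simp [xo] at ht,
    fun ⟨t, ht, h6⟩ => by
      obtain rfl : algebraMap ℂ K R = t := Option.some.inj (xe.symm.trans ht)
      exact (h5.trans (ee ▸ h6)).false⟩
  have hc : ∀ j t, ∃ i, hv (m j + n j) (C (s j) * ξ'.f j i) t ≠ 0 := fun j t =>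
    (Vb37.cp_hv ξ'.cp j t).imp fun i hi => by rw [hv_C_mul, hd]; exact mul_ne_zero (hs j) hi
  have hρm : ∀ j, (ρ ^ m j)⁻¹ ≠ 0 := fun j => inv_ne_zero (pow_ne_zero _ hρ)
  let η₁ : Dat io m (Mi S) K := ⟨fun j i => C (ρ ^ m j)⁻¹ * sc a₀ ρ (F1 j i),
    fun q => q.elim none fun i => nx a₀ ρ (ξ'.x (g i.1)),
    cp_aff (Vb37.cp_of_closed (RingHom.id K) (fun j i => ((hS j).rel i).d1) fun j t => by
      simpa only [Polynomial.map_id] using (hS j).cop1 (hc j) t) hρm a₀ hρ⟩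
  let η₂ : Dat io n (Mo S) K := ⟨fun j i => C 1 * sc a₀ R₀ (F2 j i),
    fun q => q.elim (some 0) fun i => nx a₀ R₀ (ξ'.x (g i.1)),
    cp_aff (Vb37.cp_of_closed (RingHom.id K) (fun j i => ((hS j).rel i).d2) fun j t => by
      simpa only [Polynomial.map_id] using (hS j).cop2 (hc j) t) (fun _ => one_ne_zero) a₀ hR'⟩
  have t₁ : ∀ j i, (η₁.f j i).coeff (m j) = (F1 j i).coeff (m j) := fun j i => by
    simp only [η₁]
    rw [coeff_C_mul, coeff_sc_top hρ ((hS j).rel i).d1, mul_comm _ (ρ ^ m j),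
      inv_mul_cancel_left₀ (pow_ne_zero _ hρ)]
  have t₂ : ∀ j i, (η₂.f j i).coeff 0 = (F1 j i).coeff (m j) := fun j i => by
    simp only [η₂]
    rw [C_1, one_mul, coeff_zero_sc, ((hS j).rel i).node]
  have hu : ∀ j, ∃ i, V.v ((F1 j i).coeff (m j)) = 1 := fun j => exists_unit (by
    have h6 := (hS j).spl.monic.coeff_natDegree
    have h7 := (hS j).hi none
    rw [(hS j).spl.di] at h6
    rwa [hv_none, h6, map_one] at h7) fun i => ((hS j).rel i).v_node ((hS j).b1 i)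
  choose i₀ hi₀ using hu
  have hβ : ∀ j, (F1 j (i₀ j)).coeff (m j) ≠ 0 := fun j => RZ.ne_zero_iff.1 (hi₀ j ▸ one_ne_zero)
  have m₁ : Nml η₁ none (some ⟨a, hty.a⟩) (some ⟨b, hty.b⟩) :=
    ⟨rfl, by simp [η₁, xa, nx], by simp [η₁, xb, nx, eb, hρ]⟩
  have m₂ : Nml η₂ (some ⟨o, hty.o⟩) none (some ⟨e, hty.e⟩) :=
    ⟨by simp [η₂, xo, nx], rfl, by simp [η₂, xe, nx, ee, hR']⟩
  obtain ⟨hcard, hk⟩ := DropP.prmStmt m n (Mi S) (Mo S) K η₁ η₂ _ _ _ _ _ _ i₀ m₁ m₂ (by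
    rw [show η₁.pt none = η₂.pt (some 0) from funext fun j => funext fun i =>
      (t₁ j i).trans ((t₂ j i).symm.trans (coeff_zero_eq_eval_zero _))]
    exact Par.refl _) fun j => t₁ j _ ▸ hβ j
  obtain ⟨P, hP⟩ : ∃ P, P = prm i₀ m n (none : Mi S) (some ⟨a, hty.a⟩) (some ⟨b, hty.b⟩)
    (some ⟨o, hty.o⟩ : Mo S) none (some ⟨e, hty.e⟩) η₁.f η₂.f η₁.x η₂.x := ⟨_, rfl⟩
  have hP' := dim_adjoin P
  have hft := eft_adjoin (Set.finite_range P)
  have hPk : ∀ p, P p ∈ adjoin ℂ (Set.range P) := fun p =>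
    IntermediateField.subset_adjoin _ _ ⟨p, rfl⟩
  rw [← hP] at hk
  generalize adjoin ℂ (Set.range P) = k at hk hP' hft hPk
  obtain ⟨ζ₁, ζ₂, f₁, f₂, x₁, x₂, hgl, -⟩ := hk k rfl
  by_cases hB : AlgebraicIndependent ℂ P ∧ ∀ t, k.val t ∈ V.1
  · refine Or.inr ⟨m, n, S, hty, fun x hx' => ?_⟩
    have l₁ : ∀ j i, Le V.v (η₁.f j i) 1 := fun j i l => by
      have h6 := RZ.le_one_iff.2 (hB.2 ((ζ₁.f j i).coeff l))
      have h7 := congrArg (coeff · l) (f₁ j i)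
      simp only [dmap_f, coeff_map, coeff_C_mul] at h7
      rwa [show k.val ((ζ₁.f j i).coeff l) = _ from h7, map_mul, map_inv₀, t₁, hi₀, inv_one,
        one_mul] at h6
    have l₂ : ∀ j i, Le V.v (η₂.f j i) 1 := fun j i l => by
      have h6 := RZ.le_one_iff.2 (hB.2 ((ζ₂.f j i).coeff l))
      have h7 := congrArg (coeff · l) (f₂ j i)
      simp only [dmap_f, coeff_map, coeff_C_mul] at h7
      rwa [show k.val ((ζ₂.f j i).coeff l) = _ from h7, map_mul, map_inv₀, t₂, hi₀, inv_one,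
        one_mul] at h6
    have hcong := fun j => (hS j).cong (triv V) hρ hρ1 (fun i => by
      have h6 := (l₁ j i).C_mul (ρ ^ m j)
      simp only [η₁] at h6
      rwa [← mul_assoc, ← C_mul, mul_inv_cancel₀ (pow_ne_zero _ hρ), C_1, one_mul, mul_one,
        map_pow] at h6) fun i => by simpa [η₂] using l₂ j i
    have c₁ : ∀ j i l, l ≤ m j → V.v (s j * φ ((g1 (algebraMap ℂ K₀ A) (B - algebraMap ℂ K₀ A)
        (m j) (x₀.f j i)).coeff l) - (η₁.f j i).coeff l) < 1 := fun j i l hl => by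
      have h6 := (hcong j i).1 l hl
      have h7 := g1_map (φ : K₀ →+* K) (algebraMap ℂ K₀ A) (B - algebraMap ℂ K₀ A) (m j) (x₀.f j i)
      rw [RingHom.coe_coe, φ.commutes] at h7
      rwa [g1_C_mul, hf, ← h7, coeff_C_mul, coeff_map] at h6
    have c₂ : ∀ j i l, V.v (s j * φ ((g2 (algebraMap ℂ K₀ A) (algebraMap ℂ K₀ (R - A))
        (m j) (x₀.f j i)).coeff l) - (η₂.f j i).coeff l) < 1 := fun j i l => by
      have h6 := (hcong j i).2 l
      have h7 := g2_map (φ : K₀ →+* K) (algebraMap ℂ K₀ A) (algebraMap ℂ K₀ (R - A)) (m j)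
        (x₀.f j i)
      rw [RingHom.coe_coe, φ.commutes, φ.commutes] at h7
      rw [g2_C_mul, hf, ← h7, coeff_C_mul, coeff_map] at h6
      simpa only [η₂, C_1, one_mul, RingHom.coe_coe] using h6
    rw [DropP.ktStmt d m n M K₀ x₀ o a b e A R B S hty i₀ hsh fun j h0 => by
      have h6 := c₁ j (i₀ j) _ le_rfl
      rw [h0, map_zero, mul_zero, zero_sub, Valuation.map_neg, t₁, hi₀] at h6
      exact h6.false] at hx'
    have h6 := mem_of_cong hB.2 (x := fun p => ⟨P p, hPk p⟩) (.of_comp k.val hB.1)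
      (x' := φ ∘ cprm x₀ o a b e A R B hty i₀) (fun p => by
      change V.v (_ - P p) < 1
      rcases p with p | p | p | q | q
      · simp only [Function.comp, cprm, hP, prm, map_div₀]
        rw [← mul_div_mul_left _ _ (hs p.1)]
        exact v_div_sub (l₁ _ _ _) (t₁ _ _ ▸ hi₀ _) (c₁ _ _ _ p.2.2.2.le) (c₁ _ _ _ le_rfl)
      · simp only [Function.comp, cprm, hP, prm, map_div₀]
        rw [← mul_div_mul_left _ _ (hs p.1)]
        exact v_div_sub (l₂ _ _ _) (t₂ _ _ ▸ hi₀ _) (c₂ _ _ _) (c₂ _ _ _)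
      · simp only [Function.comp, cprm, hP, prm, map_div₀]
        rw [← mul_div_mul_left _ _ (hs p.1)]
        exact v_div_sub (l₁ _ _ _) (t₁ _ _ ▸ hi₀ _) (c₁ _ _ _ le_rfl) (c₁ _ _ _ le_rfl)
      · obtain ⟨_ | i, -⟩ := q
        · simp [cprm, hP, prm, η₁]
        · rcases h7 : x₀.x i.1 with _ | t <;> simp [cprm, hP, prm, η₁, hx, h7, nx, ha₀, hρ']
      · obtain ⟨_ | i, -⟩ := q
        · simp [cprm, hP, prm, η₂]
        · rcases h7 : x₀.x i.1 with _ | t <;> simp [cprm, hP, prm, η₂, hx, h7, nx, ha₀, hR₀])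
      (φ x) (by
        rw [Set.range_comp, ← IntermediateField.adjoin_map]
        exact ⟨x, hx', rfl⟩)
    exact hV ▸ (h6 : θ x ∈ (Wd.dn ι₀ V).1)
  · refine Or.inl ?_
    obtain ⟨L', _, _, γ, u₁, u₂, ξ₁, ξ₂, hγ, r₁, r₂, hN₁, hN₂⟩ := exists_nrm2 ζ₁ ζ₂ N
    obtain ⟨δ, hδγ, -⟩ := hlift _ L' γ k.val hγ
    have d₁ : (ξ₁.map δ).res Sum.inl = ζ₁.map k.val := by
      rw [← Vb37.dmap_res, r₁, Vb37.dmap_map, hδγ]
    have d₂ : (ξ₂.map δ).res Sum.inl = ζ₂.map k.val := by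
      rw [← Vb37.dmap_res, r₂, Vb37.dmap_map, hδγ]
    have y₁ : ∀ q, (ξ₁.map δ).x (.inl q) = η₁.x q := congrFun ((congrArg Dat.x d₁).trans x₁)
    have y₂ : ∀ q, (ξ₂.map δ).x (.inl q) = η₂.x q := congrFun ((congrArg Dat.x d₂).trans x₂)
    have hL := lat_side hd hs hS h1 h3 h4 (ζ₁ := ξ₁.map δ) (ζ₂ := ξ₂.map δ)
      (s₁ := fun j => ((F1 j (i₀ j)).coeff (m j))⁻¹ * (ρ ^ m j)⁻¹)
      (s₂ := fun j => ((F1 j (i₀ j)).coeff (m j))⁻¹)
      (fun j => mul_ne_zero (inv_ne_zero (hβ j)) (hρm j)) (fun j => inv_ne_zero (hβ j)) hρ hR'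
      (fun j i => (congrFun (congrFun (congrArg Dat.f d₁) j) i).trans (by
        rw [f₁, t₁, C_mul, mul_assoc]))
      (fun j i => (congrFun (congrFun (congrArg Dat.f d₂) j) i).trans (by
        rw [f₂, t₂]
        simp [η₂]))
      hN' (Vb37.nrmUp_map hN₁ _) (Vb37.nrmUp_map hN₂ _) (y₁ none) (y₂ none) g
      (mk S Sum.inl Sum.inl) fun i => by
        unfold mk
        split_ifs with hi
        · exact ⟨hi, y₁ _⟩
        · exact ⟨out_of_not (h3.trans h4) hi, y₂ _⟩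
    have hPar : Par (ξ₁.cfg.y (.inl none)) (ξ₂.cfg.y (.inl none)) := by
      change Par ((ξ₁.res Sum.inl).pt ((ξ₁.res Sum.inl).x none))
        ((ξ₂.res Sum.inl).pt ((ξ₂.res Sum.inl).x none))
      rw [r₁, r₂, dmap_x, dmap_x, (DropP.nml_of_map x₁ m₁).1, (DropP.nml_of_map x₂ m₂).2.1,
        show (ζ₁.map γ).pt (Option.map γ none) = (ζ₂.map γ).pt (Option.map γ (some 0)) from
          funext fun j => funext fun i => by rw [Vb37.dmap_pt, Vb37.dmap_pt, hgl]]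
      exact Par.refl _
    rw [gl_map δ hPar] at hL
    have := Vb10.eft_of_deg γ (Nat.pos_of_ne_zero hγ)
    have hm := mdim_add hd i₀ (M := M) (by
      simp only [Fintype.card_option, Fintype.card_subtype_compl]
      have := Fintype.card_subtype_le (· ∈ S)
      omega) (three_le m₁) (three_le m₂) hcard
    rw [← Nat.card_eq_fintype_card, hm, ← (deg_pos_iff γ).1 (Nat.pos_of_ne_zero hγ)] at hP'
    exact small_of halg ((LP.hom δ).comp (LP.at V)) (nz_gl _ _)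
      (lat_congr hL hG ((Cfg.red_map δ (LP.at V) (nz_gl _ _)).symm.geqN N)) hP'.1 fun h0 =>
      lt_of_not_ge fun h6 => hB ⟨hP'.2 h6, fun t => by
        have h7 : γ t ∈ ((LP.hom δ).comp (LP.at V)).V.1 := h0 ▸ trivial
        have h8 := h7.2
        rwa [LP.r_hom, show δ (γ t) = k.val t from DFunLike.congr_fun hδγ t] at h8⟩

end Crest.Agent.X262.Drop30
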