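import Crest.Agent.X262.Drop30.Spl

/-!
# Row 262, DROP (helper30), part 2: the two sides of an annulus

* `nv v x` : the sup norm;
* `Mt` : a point of the line matched with a point of one of the two sides, `Mt.est` : the estimate;
* `Sd` : the side data of a family of forms; `exists_sd`.
-/

set_option autoImplicit false

namespace Crest.Agent.X262.Drop30

open Polynomial
open Crest.Agent.X262.Bub96 (hv)

variable {K : Type*} [Field K] {Γ : Type*} [LinearOrderedCommGroupWithZero Γ]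
  {v : Valuation K Γ} {ι : Type*} [Fintype ι]

/-- the sup norm -/
noncomputable def nv (v : Valuation K Γ) (x : ι → K) : Γ := Finset.univ.sup fun i => v (x i)

theorem le_nv (x : ι → K) (i : ι) : v (x i) ≤ nv v x :=
  Finset.le_sup (f := fun i => v (x i)) (Finset.mem_univ i)

theorem nv_le {x : ι → K} {γ : Γ} (h : ∀ i, v (x i) ≤ γ) : nv v x ≤ γ :=
  Finset.sup_le fun i _ => h i

theorem nv_ne {x : ι → K} (h : ∃ i, x i ≠ 0) : nv v x ≠ 0 := fun h0 => by
  obtain ⟨i, hi⟩ := h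
  have h1 := le_nv (v := v) x i
  rw [h0, le_zero_iff] at h1
  exact hi (by simpa using h1)

theorem v_sum_le_nv {l x : ι → K} (hl : ∀ i, v (l i) ≤ 1) : v (∑ i, l i * x i) ≤ nv v x :=
  v.map_sum_le fun i _ => by
    rw [map_mul]
    exact (mul_le_of_le_one_left' (hl i)).trans (le_nv x i)

variable {a ρ ρ1 ρ2 : K} {m e : ℕ} {Pi Po σ σ1 σ2 : K[X]} {M η : Γ}

/-- outside the inner circle -/
def Out (v : Valuation K Γ) (a ρ : K) (y : Option K) : Prop := ∀ t, y = some t → v ρ < v (t - a)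

theorem Spl.hv_ne (hs : Spl v a ρ1 ρ2 m e Pi Po) {y : Option K} (hy : Out v a ρ1 y) :
    v (hv m Pi y) ≠ 0 := by
  cases y with
  | none => simp [← hs.di, hs.monic.coeff_natDegree]
  | some t => exact hs.r1.v_i_ne hs.di.le (hy t rfl).le

namespace Rel

theorem out_i' (hs : Spl v a ρ1 ρ2 m e Pi Po) (h : Rel a m e Pi Po σ σ1 σ2)
    (hb : Bd v a ρ1 m Pi σ1 σ2 1) {y : Option K} (hy : Out v a ρ1 y) :
    v (hv m σ1 y - σ1.coeff m * hv m Pi y) < v (hv m Pi y) := by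
  cases y with
  | none => simp [← hs.di, hs.monic.coeff_natDegree]
  | some t => simpa using h.out_i hs.monic hs.di hs.r1 hb one_ne_zero (hy t rfl)

theorem out' (hs : Spl v a ρ1 ρ2 m e Pi Po) (h : Rel a m e Pi Po σ σ1 σ2)
    (hb : Bd v a ρ1 m Pi σ1 σ2 1) {y : Option K} (hy : Out v a ρ1 y) (hη : η ≠ 0)
    (hle : v (hv e Po y) ≤ η) :
    v (hv (m + e) σ y - hv e σ2 y * hv m Pi y) < v (hv m Pi y) * η := by
  cases y with
  | none =>
    have h1 : Pi.coeff m = 1 := by rw [← hs.di, hs.monic.coeff_natDegree]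
    simpa [h.top hs, h1] using zero_lt_iff.2 hη
  | some t => simpa using h.out hs.monic hs.di hs.r1 hb one_ne_zero (hy t rfl) hη hle

/-- in the annulus -/
theorem mid (hs : Spl v a ρ1 ρ2 m e Pi Po) (h : Rel a m e Pi Po σ σ1 σ2)
    (h1 : Bd v a ρ1 m Pi σ1 σ2 1) (h2 : Bd v a ρ2 m Pi σ1 σ2 1) {y : K} (hy : v ρ1 < v (y - a))
    (hy' : v (y - a) < v ρ2) : v ((Pi.eval y)⁻¹ * σ.eval y - σ1.coeff m) < 1 := by
  have h0 := hs.r1.v_i_ne hs.di.le hy.le
  have h0' : Pi.eval y ≠ 0 := by simpa using h0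
  have h3 := h.out hs.monic hs.di hs.r1 h1 one_ne_zero hy one_ne_zero (hs.r2.v_o hy'.le).le
  have h4 := h.ins_o hs.r2 h2 one_ne_zero hy'
  rw [show (Pi.eval y)⁻¹ * σ.eval y - σ1.coeff m = (Pi.eval y)⁻¹ *
    (σ.eval y - σ2.eval y * Pi.eval y) + (σ2.eval y - σ1.coeff m) by field_simp; ring]
  refine v.map_add_lt ?_ h4
  rw [map_mul, map_inv₀, inv_mul_lt_one₀ (zero_lt_iff.2 h0)]
  simpa using h3

theorem le_of_bd (hr : Rad v a ρ m Pi Po) (h : Rel a m e Pi Po σ σ1 σ2)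
    (hb : Bd v a ρ m Pi σ1 σ2 M) : Le v (sc a ρ σ) (M * v ρ ^ m) := by
  rw [h.eq, map_add, map_mul, map_mul]
  exact (by simpa using hb.i.mul hr.le_o : Le v _ _).add (hb.o.mul hr.le_i)

theorem le1_of_bd (hr : Rad v a ρ m Pi Po) (h : Rel a m e Pi Po σ σ1 σ2)
    (hb : Bd v a ρ m Pi σ1 σ2 M) : Le v (sc a ρ σ1) (M * v ρ ^ m) := by
  have h1 := hb.i.add (((le_C _).mono (h.v_node hb)).mul hr.le_i)
  rwa [map_sub, map_mul, sc_C, sub_add_cancel] at h1

theorem self (hs : Spl v a ρ1 ρ2 m e Pi Po) : Rel a m e Pi Po (Pi * Po) Pi Po := by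
  have h1 : Pi.coeff m = 1 := by rw [← hs.di, hs.monic.coeff_natDegree]
  exact ⟨hs.di.le, hs.dO, by rw [h1, hs.oa], by rw [h1, C_1]; ring⟩

theorem sum {F F1 F2 : ι → K[X]} (h : ∀ i, Rel a m e Pi Po (F i) (F1 i) (F2 i)) (l : ι → K) :
    Rel a m e Pi Po (∑ i, C (l i) * F i) (∑ i, C (l i) * F1 i) (∑ i, C (l i) * F2 i) := by
  refine ⟨natDegree_sum_le_of_forall_le _ _ fun i _ => (natDegree_C_mul_le _ _).trans (h i).d1,
    natDegree_sum_le_of_forall_le _ _ fun i _ => (natDegree_C_mul_le _ _).trans (h i).d2, ?_, ?_⟩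
  · simp [eval_finsetSum, (h _).node]
  · simp only [finsetSum_coeff, coeff_C_mul, map_sum, Finset.sum_mul, ← Finset.sum_sub_distrib,
      ← Finset.sum_add_distrib]
    refine Finset.sum_congr rfl fun i _ => ?_
    conv_lhs => rw [(h i).eq]
    rw [C_mul]
    ring

theorem unique {τ1 τ2 : K[X]} (hs : Spl v a ρ1 ρ2 m e Pi Po) (h : Rel a m e Pi Po σ σ1 σ2)
    (h' : Rel a m e Pi Po σ τ1 τ2) : σ1 = τ1 ∧ σ2 = τ2 := by
  have h1 : Rel a m e Pi Po 0 (σ1 - τ1) (σ2 - τ2) :=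
    ⟨(natDegree_sub_le _ _).trans (max_le h.d1 h'.d1), (natDegree_sub_le _ _).trans
      (max_le h.d2 h'.d2), by rw [coeff_sub, eval_sub, h.node, h'.node], by
      rw [coeff_sub, C_sub]
      linear_combination h.eq - h'.eq⟩
  have h2 := h1.bd_of_le (M := 0) hs.monic hs.di hs.r1 (by rw [map_zero]; exact le_zero _)
  have inj : ∀ f : K[X], sc a ρ1 f = 0 → f = 0 := fun f hf => by
    have h3 := comp_eq_zero_iff.1 hf
    refine h3.resolve_right fun h4 => ?_
    have h5 := congrArg natDegree h4.2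
    rw [natDegree_lin hs.r1.ne, natDegree_C] at h5
    exact one_ne_zero h5
  have h3 := inj _ h2.o.eq_zero
  have h4 := inj _ (Le.eq_zero (by simpa only [zero_mul] using h2.i))
  rw [h1.node, h3, eval_zero, C_0, zero_mul, sub_zero] at h4
  exact ⟨sub_eq_zero.1 h4, sub_eq_zero.1 h3⟩

end Rel

/-! ### matched points -/

/-- a point of the line and a point of one of the sides -/
inductive Mt (K : Type*) : Type _
  | ins (t : K)
  | out (y : Option K)
  | nin (y : K) (u : Option K)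
  | nout (y t : K)

namespace Mt

/-- the point of the line -/
def y : Mt K → Option K
  | ins t => some t
  | out y => y
  | nin y _ => some y
  | nout y _ => some y

/-- the point of the side -/
def u : Mt K → Option K ⊕ Option K
  | ins t => .inl (some t)
  | out y => .inr y
  | nin _ u => .inl u
  | nout _ t => .inr (some t)

/-- the comparison scalar -/
noncomputable def cf (m : ℕ) (Pi Po : K[X]) : Mt K → K
  | ins t => (Po.eval t)⁻¹
  | out y => (hv m Pi y)⁻¹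
  | nin y u => hv m Pi u * (Pi.eval y)⁻¹
  | nout y _ => (Pi.eval y)⁻¹

/-- the positions -/
def Ok (v : Valuation K Γ) (a ρ1 ρ2 : K) : Mt K → Prop
  | ins t => v (t - a) < v ρ2
  | out y => Out v a ρ1 y
  | nin y u => v ρ1 < v (y - a) ∧ v (y - a) < v ρ2 ∧ Out v a ρ1 u
  | nout y t => v ρ1 < v (y - a) ∧ v (y - a) < v ρ2 ∧ v (t - a) < v ρ2

theorem cf_prod {J : Type*} [Fintype J] (κ m : J → ℕ) (Pi Po : J → K[X])
    (h : ∀ j, (Pi j).natDegree ≤ m j) (μ : Mt K) :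
    μ.cf (∑ j, κ j * m j) (∏ j, Pi j ^ κ j) (∏ j, Po j ^ κ j) =
      ∏ j, μ.cf (m j) (Pi j) (Po j) ^ κ j := by
  have h1 : ∀ y, hv (∑ j, κ j * m j) (∏ j, Pi j ^ κ j) y = ∏ j, hv (m j) (Pi j) y ^ κ j := fun y =>
    (hv_prod _ (fun j => natDegree_pow_le_of_le _ (h j)) y).trans
      (Finset.prod_congr rfl fun j _ => hv_pow (h j) _ y)
  cases μ <;> simp [cf, h1, eval_prod, mul_pow, Finset.prod_mul_distrib]

/-- **the estimate** -/
theorem est (hs : Spl v a ρ1 ρ2 m e Pi Po) (h : Rel a m e Pi Po σ σ1 σ2)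
    (h1 : Bd v a ρ1 m Pi σ1 σ2 1) (h2 : Bd v a ρ2 m Pi σ1 σ2 1) {μ : Mt K} (hμ : μ.Ok v a ρ1 ρ2)
    (hη : η ≠ 0) (hle : v (μ.u.elim (hv m Pi) (hv e Po)) ≤ η) :
    v (μ.cf m Pi Po * hv (m + e) σ μ.y - μ.u.elim (hv m σ1) (hv e σ2)) < η := by
  cases μ with
  | ins t =>
    have h3 := hs.r2.v_o (le_of_lt hμ)
    have h0 : Po.eval t ≠ 0 := fun h0 => by simp [h0] at h3
    have h4 := h.ins hs.r2 h2 one_ne_zero hμ hη hle
    change v ((Po.eval t)⁻¹ * σ.eval t - σ1.eval t) < η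
    rw [show (Po.eval t)⁻¹ * σ.eval t - σ1.eval t =
      (Po.eval t)⁻¹ * (σ.eval t - σ1.eval t * Po.eval t) by field_simp, map_mul, map_inv₀, h3]
    simpa using h4
  | out y =>
    have h0 := hs.hv_ne hμ
    have h0' : hv m Pi y ≠ 0 := by simpa using h0
    have h4 := h.out' hs h1 hμ hη hle
    change v ((hv m Pi y)⁻¹ * hv (m + e) σ y - hv e σ2 y) < η
    rw [show (hv m Pi y)⁻¹ * hv (m + e) σ y - hv e σ2 y =
      (hv m Pi y)⁻¹ * (hv (m + e) σ y - hv e σ2 y * hv m Pi y) by field_simp, map_mul, map_inv₀,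
      inv_mul_lt_iff₀ (zero_lt_iff.2 h0)]
    exact h4
  | nin y u =>
    have h3 := h.mid hs h1 h2 hμ.1 hμ.2.1
    have h4 := h.out_i' hs h1 hμ.2.2
    change v (hv m Pi u * (Pi.eval y)⁻¹ * σ.eval y - hv m σ1 u) < η
    rw [show hv m Pi u * (Pi.eval y)⁻¹ * σ.eval y - hv m σ1 u = hv m Pi u *
      ((Pi.eval y)⁻¹ * σ.eval y - σ1.coeff m) - (hv m σ1 u - σ1.coeff m * hv m Pi u) by ring]
    refine (v.map_sub_lt ?_ h4).trans_le hle
    rw [map_mul]
    exact mul_lt_of_lt_one_right (zero_lt_iff.2 (hs.hv_ne hμ.2.2)) h3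
  | nout y t =>
    have h3 := h.mid hs h1 h2 hμ.1 hμ.2.1
    have h4 := h.ins_o hs.r2 h2 one_ne_zero hμ.2.2
    change v ((Pi.eval y)⁻¹ * σ.eval y - σ2.eval t) < η
    rw [show (Pi.eval y)⁻¹ * σ.eval y - σ2.eval t =
      ((Pi.eval y)⁻¹ * σ.eval y - σ1.coeff m) - (σ2.eval t - σ1.coeff m) by ring]
    exact (v.map_sub_lt h3 h4).trans_le ((hs.r2.v_o hμ.2.2.le).symm.le.trans hle)

end Mt

/-! ### side data -/

/-- the two sides of the family `F` -/
structure Sd (v : Valuation K Γ) (a ρ1 ρ2 : K) (m e : ℕ) (Pi Po : K[X]) (F F1 F2 : ι → K[X]) :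
    Prop where
  spl : Spl v a ρ1 ρ2 m e Pi Po
  rel : ∀ i, Rel a m e Pi Po (F i) (F1 i) (F2 i)
  b1 : ∀ i, Bd v a ρ1 m Pi (F1 i) (F2 i) 1
  b2 : ∀ i, Bd v a ρ2 m Pi (F1 i) (F2 i) 1
  hi : ∀ y, v (hv m Pi y) ≤ nv v fun i => hv m (F1 i) y
  ho : ∀ y, v (hv e Po y) ≤ nv v fun i => hv e (F2 i) y

namespace Sd

variable {F F1 F2 : ι → K[X]}

theorem cop1 (h : Sd v a ρ1 ρ2 m e Pi Po F F1 F2) (hc : ∀ y, ∃ i, hv (m + e) (F i) y ≠ 0)
    (y : Option K) : ∃ i, hv m (F1 i) y ≠ 0 := by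
  by_contra h0
  push Not at h0
  have h1 : hv m Pi y = 0 := by
    simpa using (h.hi y).trans (nv_le (γ := 0) fun i => by rw [h0 i, map_zero])
  cases y with
  | none => simp [← h.spl.di, h.spl.monic.coeff_natDegree] at h1
  | some t =>
    obtain ⟨i, hi⟩ := hc (some t)
    refine hi ?_
    rw [(h.rel i).eq]
    simp only [hv_some] at h0 h1
    simp [h0, h1]

theorem cop2 (h : Sd v a ρ1 ρ2 m e Pi Po F F1 F2) (hc : ∀ y, ∃ i, hv (m + e) (F i) y ≠ 0)
    (y : Option K) : ∃ i, hv e (F2 i) y ≠ 0 := by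
  by_contra h0
  push Not at h0
  have h1 : hv e Po y = 0 := by
    simpa using (h.ho y).trans (nv_le (γ := 0) fun i => by rw [h0 i, map_zero])
  obtain ⟨i, hi⟩ := hc y
  refine hi ?_
  cases y with
  | none => exact ((h.rel i).top h.spl).trans (h0 i)
  | some t =>
    rw [(h.rel i).eq]
    simp only [hv_some] at h0 h1
    simp [h0, h1]

end Sd

/-- on a circle, coefficient bounds give bounds of the norm -/
theorem nv_circ (hρ : ρ ≠ 0) {F : ι → K[X]} {γ : Γ} (h : ∀ i, Le v (sc a ρ (F i)) γ) {y : K}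
    (hy : v (y - a) = v ρ) : (nv v fun i => (F i).eval y) ≤ γ := nv_le fun i => by
  rw [← eval_sc' (a := a) hρ]
  exact (h i).eval (by rw [map_div₀, hy, div_self (by simpa using hρ)])

/-- at most `card ι` integers are bad for a vector -/
theorem card_bad (hv : Triv v) (ε : ι ↪ Fin (Fintype.card ι)) (w : ι → K) (i₀ : ι) (s : Finset ℕ)
    (hs : ∀ c ∈ s, v (∑ i, (c : K) ^ (ε i : ℕ) * w i) < v (w i₀)) : s.card < Fintype.card ι := by
  by_contra hc
  have hpos : 0 < Fintype.card ι := Fintype.card_pos_iff.2 ⟨i₀⟩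
  obtain ⟨c, hc1, hc2⟩ := s.exists_max_image (fun c => v (∑ i, (c : K) ^ (ε i : ℕ) * w i))
    (Finset.card_pos.1 (by omega))
  have h1 := le_of_nat (f := ∑ i, monomial (ε i : ℕ) (w i))
    (γ := v (∑ i, (c : K) ^ (ε i : ℕ) * w i)) hv s
    (lt_of_le_of_lt (natDegree_sum_le_of_forall_le (n := Fintype.card ι - 1) _ _ fun i _ =>
      (natDegree_monomial_le _).trans (by have := (ε i).2; omega)) (by omega))
    fun n hn => by
      rw [eval_finsetSum]
      simpa only [eval_monomial, mul_comm (w _)] using hc2 n hn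
  have h2 := h1 (ε i₀)
  rw [finsetSum_coeff, Finset.sum_eq_single i₀ (fun i _ hi => by
    rw [coeff_monomial, if_neg fun h => hi (ε.injective (Fin.ext h))]) (by simp),
    coeff_monomial, if_pos rfl] at h2
  exact (hs c hc1).not_ge h2

/-- the Vandermonde forms -/
noncomputable def vf (F : ι → K[X]) (c : ℕ) : K[X] :=
  ∑ i, C ((c : K) ^ (Fintype.equivFin ι i : ℕ)) * F i

/-- for all but `card ι` integers, the Vandermonde form has the largest Gauss norm -/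
theorem card_bad' (hv : Triv v) {F : ι → K[X]} (a ρ : K) [Nonempty ι] (s : Finset ℕ)
    (hs : ∀ c ∈ s, ¬ ∀ γ, Le v (sc a ρ (vf F c)) γ → ∀ i, Le v (sc a ρ (F i)) γ) :
    s.card < Fintype.card ι := by
  choose n hn using fun i => exists_le (v := v) (sc a ρ (F i))
  obtain ⟨i₀, -, h0⟩ := Finset.univ.exists_max_image (fun i => v ((sc a ρ (F i)).coeff (n i)))
    Finset.univ_nonempty
  refine card_bad hv (Fintype.equivFin ι).toEmbedding (fun i => (sc a ρ (F i)).coeff (n i₀)) i₀ s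
    fun c hc => lt_of_not_ge fun hle => hs c hc fun γ hγ i => (hn i).mono ?_
  refine (h0 i (Finset.mem_univ i)).trans (hle.trans ?_)
  have h1 := hγ (n i₀)
  simp only [vf, map_sum, map_mul, sc_C, finsetSum_coeff, coeff_C_mul] at h1
  exact h1

theorem exists_sd [IsAlgClosed K] (hv : Triv v) (h1 : ρ1 ≠ 0) (h12 : v ρ1 < v ρ2) {d : ℕ}
    {F : ι → K[X]} (hd : ∀ i, (F i).natDegree ≤ d) (h0 : ∃ i, F i ≠ 0)
    (hr : ∀ c < 2 * Fintype.card ι, vf F c ≠ 0 → ∀ y, (vf F c).eval y = 0 →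
      v (y - a) < v ρ1 ∨ v ρ2 < v (y - a)) :
    ∃ (m e : ℕ) (s : K) (Pi Po : K[X]) (F1 F2 : ι → K[X]), s ≠ 0 ∧ m + e = d ∧
      Sd v a ρ1 ρ2 m e Pi Po (fun i => C s * F i) F1 F2 := by
  classical
  obtain ⟨i₀, hi₀⟩ := h0
  have : Nonempty ι := ⟨i₀⟩
  let G : K → ℕ → Prop := fun ρ c => ∀ γ, Le v (sc a ρ (vf F c)) γ → ∀ i, Le v (sc a ρ (F i)) γ
  obtain ⟨c, hc, g1, g2⟩ : ∃ c < 2 * Fintype.card ι, G ρ1 c ∧ G ρ2 c := by
    by_contra hc
    push Not at hc
    have h2 := card_bad' hv (F := F) a ρ1 ((Finset.range (2 * Fintype.card ι)).filter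
      fun c => ¬ G ρ1 c) fun c hc => (Finset.mem_filter.1 hc).2
    have h3 := card_bad' hv (F := F) a ρ2 ((Finset.range (2 * Fintype.card ι)).filter
      fun c => G ρ1 c) fun c h => hc c (Finset.mem_range.1 (Finset.mem_filter.1 h).1)
        (Finset.mem_filter.1 h).2
    have h4 := Finset.card_filter_add_card_filter_not (s := Finset.range (2 * Fintype.card ι))
      fun c => G ρ1 c
    rw [Finset.card_range] at h4
    omega
  have hP : vf F c ≠ 0 := fun hP => by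
    have h2 := (g1 0 (by rw [hP, map_zero]; exact le_zero _) i₀).eq_zero
    refine (comp_eq_zero_iff.1 h2).elim hi₀ fun h4 => ?_
    have h5 := congrArg natDegree h4.2
    rw [natDegree_lin h1, natDegree_C] at h5
    exact one_ne_zero h5
  obtain ⟨m, e, s, Pi, Po, hs, hme, hS, hp⟩ := exists_spl (a := a) h1 h12 hP
    (natDegree_sum_le_of_forall_le _ _ fun i _ => (natDegree_C_mul_le _ _).trans (hd i))
    (hr c hc hP)
  choose F1 F2 hF using fun i => hS.exists_rel (σ := C s⁻¹ * F i)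
    ((natDegree_C_mul_le _ _).trans (hme ▸ hd i))
  have hb : ∀ ρ, Rad v a ρ m Pi Po → G ρ c → ∀ i, Bd v a ρ m Pi (F1 i) (F2 i) 1 :=
    fun ρ hρ g i => (hF i).bd_of_le hS.monic hS.di hρ (by
      have h2 := (g _ (by
        rw [hp, map_mul, map_mul, sc_C]
        exact (hρ.le_i.mul hρ.le_o).C_mul s) i).C_mul s⁻¹
      rwa [← mul_assoc, ← map_mul, inv_mul_cancel₀ hs, map_one, mul_one, ← sc_C (a := a) (ρ := ρ),
        ← map_mul] at h2)
  have hu := (Rel.sum hF fun i => (c : K) ^ (Fintype.equivFin ι i : ℕ)).unique hS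
    (τ1 := Pi) (τ2 := Po) (by
      convert Rel.self hS using 1
      rw [← one_mul (Pi * Po), ← C_1, ← inv_mul_cancel₀ hs, C_mul, mul_assoc, ← hp, vf,
        Finset.mul_sum]
      exact Finset.sum_congr rfl fun i _ => mul_left_comm _ _ _)
  have hl : ∀ i, v ((c : K) ^ (Fintype.equivFin ι i : ℕ)) ≤ 1 := fun i => by
    rw [map_pow]
    exact pow_le_one' (hv.le c) _
  refine ⟨m, e, s⁻¹, Pi, Po, F1, F2, inv_ne_zero hs, hme, hS, hF, hb _ hS.r1 g1, hb _ hS.r2 g2,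
    fun y => ?_, fun y => ?_⟩
  · rw [← hu.1, hv_sum]
    simpa only [hv_C_mul] using v_sum_le_nv hl
  · rw [← hu.2, hv_sum]
    simpa only [hv_C_mul] using v_sum_le_nv hl

theorem exists_mid [IsAlgClosed K] {x y : K} (hx : x ≠ 0) (h : v x < v y) :
    ∃ z, z ≠ 0 ∧ v x < v z ∧ v z < v y := by
  obtain ⟨z, hz⟩ := IsAlgClosed.exists_pow_nat_eq (x * y) (n := 2) two_pos
  have hx' : 0 < v x := zero_lt_iff.2 (by simpa using hx)
  have h1 : v z ^ 2 = v x * v y := by rw [← map_pow, hz, map_mul]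
  have h2 : v x < v z := lt_of_pow_lt_pow_left₀ 2 zero_le (by
    rw [h1, pow_two]
    exact mul_lt_mul_of_pos_left h hx')
  refine ⟨z, fun h0 => by simp [h0] at h2, h2, lt_of_pow_lt_pow_left₀ 2 zero_le ?_⟩
  rw [h1, pow_two]
  exact mul_lt_mul_of_pos_right h (hx'.trans h)

/-- an annulus between `b` and `r` which avoids a finite set -/
theorem exists_ann [IsAlgClosed K] {ρ R : K} (hρ : ρ ≠ 0) (h : v ρ < v R) (a : K) (S : Finset K) :
    ∃ ρ1 ρ2 y, ρ1 ≠ 0 ∧ v ρ < v ρ1 ∧ v ρ1 < v (y - a) ∧ v (y - a) < v ρ2 ∧ v ρ2 < v R ∧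
      ∀ t ∈ S, v (t - a) < v ρ1 ∨ v ρ2 < v (t - a) := by
  classical
  obtain ⟨x, hx, hm⟩ := (insert ρ ((S.image (· - a)).filter fun t => v t < v R)).exists_max_image
    v (Finset.insert_nonempty _ _)
  have h1 : v ρ ≤ v x := hm ρ (Finset.mem_insert_self _ _)
  have h2 : v x < v R := by
    rcases Finset.mem_insert.1 hx with rfl | hx
    · exact h
    · exact (Finset.mem_filter.1 hx).2
  have h3 : x ≠ 0 := fun h0 => hρ (by simpa [h0] using h1)
  obtain ⟨ρ2, -, h4, h5⟩ := exists_mid h3 h2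
  obtain ⟨ρ1, h6, h7, h8⟩ := exists_mid h3 h4
  obtain ⟨z, -, h9, h10⟩ := exists_mid h6 h8
  refine ⟨ρ1, ρ2, z + a, h6, h1.trans_lt h7, by simpa using h9, by simpa using h10, h5,
    fun t ht => ?_⟩
  rcases lt_or_ge (v (t - a)) (v R) with h11 | h11
  · exact Or.inl ((hm _ (Finset.mem_insert_of_mem (Finset.mem_filter.2
      ⟨Finset.mem_image_of_mem _ ht, h11⟩))).trans_lt h7)
  · exact Or.inr (h5.trans_le h11)

end Crest.Agent.X262.Drop30
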