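import Crest.Agent.X262.Drop30.Defs
import Crest.Agent.X262.Drop30.Side

/-!
# Row 262, DROP (helper30), part 5: the chart and the side data

* `coeff_g1`, `coeff_g2`, `Sd.cong` : the coefficients of the chart are congruent to those of the
  sides;
* `Gr` : good reduction; `sd_chart` : the side data of a chart with good reduction.
-/

set_option autoImplicit false

namespace Crest.Agent.X262.Drop30

open Polynomial
open Crest.Agent.X262.Bub96 (hv)

section Alg

variable {K L : Type} [Field K] [Field L] {a ρ : K}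

theorem coeff_g1 (a ρ : K) (m : ℕ) (f : K[X]) (l : ℕ) :
    (g1 a ρ m f).coeff l = if l ≤ m then (sc a ρ f).coeff l / ρ ^ m else 0 := by
  simp [g1, coeff_monomial]

theorem coeff_g2 (a ρ : K) (m : ℕ) (f : K[X]) (l : ℕ) :
    (g2 a ρ m f).coeff l = (ρ ^ m)⁻¹ * (sc a ρ f).coeff (l + m) := by
  have h1 := congrArg (coeff · (l + m)) (modByMonic_add_div (sc a ρ f) (X ^ m))
  have h2 := degree_modByMonic_lt (sc a ρ f) (monic_X_pow m)
  rw [degree_X_pow] at h2
  simp only [coeff_add, coeff_X_pow_mul, coeff_eq_zero_of_degree_lt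
    (h2.trans_le (by exact_mod_cast Nat.le_add_left m l)), zero_add] at h1
  rw [g2, coeff_C_mul, h1]

theorem sc_map (φ : K →+* L) (a ρ : K) (f : K[X]) :
    (sc a ρ f).map φ = sc (φ a) (φ ρ) (f.map φ) := by
  simp [sc_apply, map_comp]

theorem g1_map (φ : K →+* L) (a ρ : K) (m : ℕ) (f : K[X]) :
    (g1 a ρ m f).map φ = g1 (φ a) (φ ρ) m (f.map φ) := by
  ext l
  rw [coeff_map, coeff_g1, coeff_g1, ← sc_map, coeff_map]
  split_ifs <;> simp

theorem g2_map (φ : K →+* L) (a ρ : K) (m : ℕ) (f : K[X]) :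
    (g2 a ρ m f).map φ = g2 (φ a) (φ ρ) m (f.map φ) := by
  ext l
  rw [coeff_map, coeff_g2, coeff_g2, ← sc_map, coeff_map]
  simp

theorem g1_C_mul (a ρ : K) (m : ℕ) (c : K) (f : K[X]) :
    g1 a ρ m (C c * f) = C c * g1 a ρ m f := by
  ext l
  rw [coeff_C_mul, coeff_g1, coeff_g1, map_mul, sc_C, coeff_C_mul]
  split_ifs <;> simp [mul_div_assoc]

theorem g2_C_mul (a ρ : K) (m : ℕ) (c : K) (f : K[X]) :
    g2 a ρ m (C c * f) = C c * g2 a ρ m f := by
  ext l
  rw [coeff_C_mul, coeff_g2, coeff_g2, map_mul, sc_C, coeff_C_mul, mul_left_comm]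

theorem nx_map (φ : K →+* L) (a ρ : K) (x : Option K) :
    (nx a ρ x).map φ = nx (φ a) (φ ρ) (x.map φ) := by
  cases x <;> simp [nx]

end Alg

variable {K : Type} [Field K] {Γ : Type*} [LinearOrderedCommGroupWithZero Γ]
  {v : Valuation K Γ} {ι : Type*} [Fintype ι] {a ρ R ρ1 ρ2 : K} {m e : ℕ} {f Pi Po : K[X]} {γ : Γ}

theorem coeff_sc_div (hρ : ρ ≠ 0) (a R : K) (f : K[X]) (l : ℕ) :
    (sc a R f).coeff l = (sc a ρ f).coeff l * (R / ρ) ^ l := by
  rw [← comp_C_mul_X_coeff, sc_apply, sc_apply, comp_assoc]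
  simp [← mul_assoc, ← C_mul, mul_div_cancel₀ _ hρ]

theorem Le.shrink (hR : R ≠ 0) (h : v ρ ≤ v R) (hf : Le v (sc a R f) γ) : Le v (sc a ρ f) γ :=
  fun l => by
    rw [coeff_sc_div hR, map_mul, map_pow, map_div₀]
    exact (mul_le_of_le_one_right' (pow_le_one'
      ((div_le_one₀ (zero_lt_iff.2 (by simpa using hR))).2 h) _)).trans (hf l)

theorem Le.shrink_lt (h : v ρ < v R) (hf : Le v (sc a R f) 1) :
    Lt v (sc a ρ f - C (f.eval a)) 1 := fun l => by
  have h0 : 0 < v R := zero_le.trans_lt h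
  rw [coeff_sub]
  rcases l with _ | l
  · simp [coeff_zero_sc]
  · rw [coeff_C_succ, sub_zero, coeff_sc_div (ρ := R) (by simpa using h0.ne'), map_mul, map_pow,
      map_div₀]
    exact (mul_le_of_le_one_left' (hf _)).trans_lt
      (pow_lt_one₀ zero_le ((div_lt_one₀ h0).2 h) l.succ_ne_zero)

theorem v_grow (hρ : ρ ≠ 0) (hf : Le v (sc a ρ f) (v ρ ^ m)) {l : ℕ} (hl : l ≤ m) :
    v ((sc a R f).coeff l) ≤ v ρ ^ (m - l) * v R ^ l := by
  have h0 : v ρ ^ l ≠ 0 := pow_ne_zero _ (by simpa using hρ)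
  rw [coeff_sc_div hρ, map_mul, map_pow, map_div₀, div_pow]
  refine (mul_le_mul' (hf l) le_rfl).trans_eq ?_
  rw [← pow_sub_mul_pow (v ρ) hl, mul_assoc, mul_div_cancel₀ _ h0]

theorem Le.grow (hρ : ρ ≠ 0) (h : v ρ ≤ v R) (hf : Le v (sc a ρ f) (v ρ ^ m))
    (hm : f.natDegree ≤ m) : Le v (sc a R f) (v R ^ m) := fun l => by
  by_cases hl : l ≤ m
  · refine (v_grow hρ hf hl).trans ?_
    rw [← pow_sub_mul_pow (v R) hl]
    exact mul_le_mul' (pow_le_pow_left' h _) le_rfl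
  · rw [coeff_sc_div hρ, coeff_eq_zero_of_natDegree_lt
      ((natDegree_sc hρ f).trans_lt (hm.trans_lt (not_le.1 hl)))]
    simp

theorem Le.grow_lt (hρ : ρ ≠ 0) (h : v ρ < v R) (hf : Le v (sc a ρ f) (v ρ ^ m))
    (hm : f.natDegree ≤ m) : Lt v (sc a R f - C (f.coeff m * R ^ m) * X ^ m) (v R ^ m) := fun l => by
  have h0 : 0 < v R := zero_le.trans_lt h
  have hR : R ≠ 0 := by simpa using h0.ne'
  rw [coeff_sub, coeff_C_mul, coeff_X_pow]
  rcases lt_trichotomy l m with hl | rfl | hl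
  · rw [if_neg hl.ne, mul_zero, sub_zero]
    refine (v_grow hρ hf hl.le).trans_lt ?_
    rw [← pow_sub_mul_pow (v R) hl.le]
    exact mul_lt_mul_of_pos_right (pow_lt_pow_left₀ h zero_le (Nat.sub_ne_zero_of_lt hl))
      (pow_pos h0 _)
  · rw [if_pos rfl, mul_one, coeff_sc_top hR hm, sub_self, map_zero]
    exact pow_pos h0 _
  · rw [if_neg hl.ne', mul_zero, sub_zero,
      coeff_eq_zero_of_natDegree_lt ((natDegree_sc hR f).trans_lt (hm.trans_lt hl)), map_zero]
    exact pow_pos h0 _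

variable {F F1 F2 : ι → K[X]}

/-- the coefficients of the chart are congruent to the coefficients of the sides -/
theorem Sd.cong (hv : Triv v) (h : Sd v a ρ1 ρ2 m e Pi Po F F1 F2) (hρ : ρ ≠ 0) (hlt : v ρ < v R)
    (h1 : ∀ i, Le v (sc a ρ (F1 i)) (v ρ ^ m)) (h2 : ∀ i, Le v (sc a R (F2 i)) 1) (i : ι) :
    (∀ l ≤ m, v ((g1 a ρ m (F i)).coeff l - (C (ρ ^ m)⁻¹ * sc a ρ (F1 i)).coeff l) < 1) ∧
      ∀ l, v ((g2 a R m (F i)).coeff l - (sc a R (F2 i)).coeff l) < 1 := by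
  have h0 : 0 < v R := zero_le.trans_lt hlt
  have hR : R ≠ 0 := by simpa using h0.ne'
  have h0' : v ρ ^ m ≠ 0 := pow_ne_zero _ (by simpa using hρ)
  have hPi : Le v (sc a ρ Pi) (v ρ ^ m) :=
    circ hv fun y hy => (h.hi (some y)).trans (nv_circ hρ h1 hy)
  have hPo : Le v (sc a R Po) 1 := circ hv fun y hy => (h.ho (some y)).trans (nv_circ hR h2 hy)
  have hβ := (h.rel i).v_node (h.b1 i)
  set β := (F1 i).coeff m with hβ'
  have hA : Le v (sc a ρ (F1 i - C β * Pi)) (v ρ ^ m) := by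
    rw [map_sub, map_mul, sc_C]
    exact (h1 i).sub (by simpa using ((le_C _).mono hβ).mul hPi)
  have hd := degree_low h.spl.monic h.spl.di (h.rel i).d1
  refine ⟨fun l hl => ?_, fun l => ?_⟩
  · have e1 := hA.mul_lt (hPo.shrink_lt hlt) h0'
    have e2 := ((h2 i).shrink_lt hlt).mul_le hPi h0'
    rw [mul_one] at e1
    rw [one_mul] at e2
    have e3 := e1.add e2 l
    rw [h.spl.oa, ← (h.rel i).node, show sc a ρ (F1 i - C β * Pi) * (sc a ρ Po - C 1) +
      (sc a ρ (F2 i) - C β) * sc a ρ Pi = sc a ρ (F i) - sc a ρ (F1 i) by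
        conv_rhs => rw [(h.rel i).eq]
        simp only [map_add, map_mul, map_sub, sc_C, C_1, ← hβ']
        ring, coeff_sub] at e3
    rw [coeff_g1, if_pos hl, coeff_C_mul, div_eq_inv_mul, ← mul_sub, map_mul, map_inv₀, map_pow,
      inv_mul_lt_one₀ (zero_lt_iff.2 h0')]
    exact e3
  · have e1 := hA.grow_lt hρ hlt (natDegree_le_of_degree_le hd.le)
    have e2 := hPi.grow_lt hρ hlt h.spl.di.le
    rw [coeff_eq_zero_of_degree_lt hd, zero_mul, C_0, zero_mul, sub_zero] at e1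
    rw [show Pi.coeff m = 1 by rw [← h.spl.di, h.spl.monic.coeff_natDegree], one_mul] at e2
    have e3 := e1.mul_le hPo one_ne_zero
    have e4 := (h2 i).mul_lt e2 one_ne_zero
    rw [mul_one] at e3
    rw [one_mul] at e4
    have e5 := e3.add e4 (l + m)
    rw [show sc a R (F1 i - C β * Pi) * sc a R Po + sc a R (F2 i) *
      (sc a R Pi - C (R ^ m) * X ^ m) = sc a R (F i) - C (R ^ m) * sc a R (F2 i) * X ^ m by
        conv_rhs => rw [(h.rel i).eq]
        simp only [map_add, map_mul, map_sub, sc_C, ← hβ']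
        ring, coeff_sub, coeff_mul_X_pow, coeff_C_mul] at e5
    rw [coeff_g2, ← inv_mul_cancel_left₀ (pow_ne_zero m hR) ((sc a R (F2 i)).coeff l), ← mul_sub,
      map_mul, map_inv₀, map_pow, inv_mul_lt_one₀ (pow_pos h0 _)]
    exact e5

/-- good reduction -/
structure Gr (v : Valuation K Γ) (m : ℕ) (G : ι → K[X]) : Prop where
  le : ∀ i, Le v (G i) 1
  deg : ∀ i, (G i).natDegree ≤ m
  top : ∃ i, v ((G i).coeff m) = 1
  bez : ∃ A : ι → K[X], (∀ i, Le v (A i) 1) ∧ ∑ i, A i * G i = 1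

theorem Gr.ge {G : ι → K[X]} (h : Gr v m G) (u : K) :
    (1 ≤ nv v fun i => (G i).eval u) ∧ v u ^ m ≤ nv v fun i => (G i).eval u := by
  rcases le_or_gt (v u) 1 with hu | hu
  · obtain ⟨A, hA, h1⟩ := h.bez
    have h2 := v_sum_le_nv (v := v) (x := fun i => (G i).eval u) fun i => (hA i).eval hu
    have h3 := congrArg (eval u) h1
    simp only [eval_finsetSum, eval_mul, eval_one] at h3
    rw [h3, map_one] at h2
    exact ⟨h2, (pow_le_one' hu m).trans h2⟩
  · obtain ⟨i, hi⟩ := h.top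
    have h1 : Le v (G i - C ((G i).coeff m) * X ^ m) 1 :=
      (h.le i).sub (by simpa [hi] using (le_X_pow (v := v) m).C_mul ((G i).coeff m))
    have h2 := h1.eval_out_lt one_ne_zero
      (degree_low (monic_X_pow m) (natDegree_X_pow m) (h.deg i)) hu
    have h3 : v ((G i).coeff m * u ^ m) = v u ^ m := by rw [map_mul, hi, one_mul, map_pow]
    rw [one_mul, eval_sub, eval_mul, eval_C, eval_pow, eval_X, ← h3] at h2
    have h4 := ((v_eq_of_sub_lt h2).trans h3).ge.trans (le_nv (fun i => (G i).eval u) i)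
    exact ⟨(one_le_pow₀ hu.le).trans h4, h4⟩

theorem sc_pow (a ρ : K) (m : ℕ) : sc a ρ ((X - C a) ^ m) = C (ρ ^ m) * X ^ m := by
  rw [map_pow, map_sub, sc_X, sc_C, add_sub_cancel_left, mul_pow, C_pow]

/-- the side data of a chart with good reduction -/
theorem sd_chart [IsAlgClosed K] (hρ : ρ ≠ 0) (h1 : v ρ < v ρ1) (h12 : v ρ1 < v ρ2)
    (h2 : v ρ2 < v R) (hd : ∀ i, (F i).natDegree ≤ m + e) (G1 : Gr v m fun i => g1 a ρ m (F i))
    (G2 : Gr v e fun i => g2 a R m (F i)) :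
    ∃ F1 F2 : ι → K[X], Sd v a ρ1 ρ2 m e ((X - C a) ^ m) 1 F F1 F2 ∧
      (∀ i, g1 a ρ m (F i) = C (ρ ^ m)⁻¹ * sc a ρ (F1 i)) ∧
      ∀ i, g2 a R m (F i) = sc a R (F2 i) := by
  have ne : ∀ {x y : K}, v x < v y → y ≠ 0 := fun h h0 => by simp [h0] at h
  have hR := ne h2
  have rad : ∀ {r : K}, r ≠ 0 → Rad v a r m ((X - C a) ^ m) 1 := fun hr =>
    ⟨hr, by rw [sc_pow, sub_self]; exact lt_zero (pow_ne_zero _ (by simpa using hr)),
      by simpa using lt_zero one_ne_zero⟩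
  have hS : Spl v a ρ1 ρ2 m e ((X - C a) ^ m) 1 :=
    ⟨(monic_X_sub_C a).pow m, by simp [natDegree_pow], by simp, eval_one, rad (ne h1), rad (ne h12)⟩
  choose F1 F2 hF using fun i => hS.exists_rel (hd i)
  have key : ∀ i r, sc a r (F i) = sc a r (F1 i) +
      C (r ^ m) * (sc a r (F2 i) - C ((F1 i).coeff m)) * X ^ m := fun i r => by
    conv_lhs => rw [(hF i).eq]
    simp only [map_add, map_mul, map_sub, sc_C, sc_pow, map_one]
    ring
  have k0 : ∀ i r, (sc a r (F2 i) - C ((F1 i).coeff m)).coeff 0 = 0 := fun i r => by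
    rw [coeff_sub, coeff_zero_sc, coeff_C_zero, (hF i).node, sub_self]
  have e1 : ∀ i, g1 a ρ m (F i) = C (ρ ^ m)⁻¹ * sc a ρ (F1 i) := fun i => by
    ext l
    rw [coeff_g1, coeff_C_mul]
    split_ifs with hl
    · rw [key, coeff_add, coeff_mul_X_pow', div_eq_inv_mul]
      split_ifs with hl'
      · rw [Nat.sub_eq_zero_of_le hl, coeff_C_mul, k0, mul_zero, add_zero]
      · rw [add_zero]
    · rw [coeff_eq_zero_of_natDegree_lt
        ((natDegree_sc hρ _).trans_lt ((hF i).d1.trans_lt (not_le.1 hl))), mul_zero]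
  have e2 : ∀ i, g2 a R m (F i) = sc a R (F2 i) := fun i => by
    ext l
    rw [coeff_g2, key, coeff_add, coeff_mul_X_pow, coeff_C_mul, coeff_sub, mul_add,
      inv_mul_cancel_left₀ (pow_ne_zero m hR)]
    rcases l with _ | l
    · rw [zero_add, coeff_sc_top hR (hF i).d1, coeff_C_zero]
      field_simp
      ring
    · rw [coeff_C_succ, sub_zero, coeff_eq_zero_of_natDegree_lt
        ((natDegree_sc hR _).trans_lt ((hF i).d1.trans_lt (by omega))), mul_zero, zero_add]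
  have e1' : ∀ i, sc a ρ (F1 i) = C (ρ ^ m) * g1 a ρ m (F i) := fun i => by
    rw [e1, ← mul_assoc, ← C_mul, mul_inv_cancel₀ (pow_ne_zero m hρ), C_1, one_mul]
  have b : ∀ {r : K}, v ρ < v r → v r < v R →
      ∀ i, Bd v a r m ((X - C a) ^ m) (F1 i) (F2 i) 1 := fun hr hr' i =>
    (hF i).bd_of_pair (rad (ne hr)) (by
      rw [one_mul]
      exact Le.grow hρ hr.le (by simpa [e1'] using (G1.le i).C_mul (ρ ^ m)) (hF i).d1)
      (Le.shrink hR hr'.le (e2 i ▸ G2.le i))
  refine ⟨F1, F2, ⟨hS, hF, b h1 (h12.trans h2), b (h1.trans h12) h2, fun y => ?_, fun y => ?_⟩,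
    e1, e2⟩
  · cases y with
    | none =>
      obtain ⟨i, hi⟩ := G1.top
      rw [e1, coeff_C_mul, coeff_sc_top hρ (hF i).d1, mul_comm _ (ρ ^ m),
        inv_mul_cancel_left₀ (pow_ne_zero m hρ)] at hi
      refine le_trans ?_ (hi.ge.trans (le_nv (fun i => hv m (F1 i) none) i))
      have h3 := hS.monic.coeff_natDegree
      rw [hS.di] at h3
      rw [hv_none, h3, map_one]
    | some y =>
      have h3 := (G1.ge ((y - a) / ρ)).2
      have h4 : v ((y - a) ^ m) = v (ρ ^ m) * v ((y - a) / ρ) ^ m := by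
        rw [← map_pow, ← map_mul, ← mul_pow, mul_div_cancel₀ _ hρ]
      rw [hv_some, eval_pow, eval_sub, eval_X, eval_C, h4,
        ← le_inv_mul_iff₀ (zero_lt_iff.2 (by simpa using pow_ne_zero m hρ))]
      refine h3.trans (nv_le fun i => ?_)
      rw [e1, eval_mul, eval_C, eval_sc' hρ, map_mul, map_inv₀]
      exact mul_le_mul' le_rfl (le_nv (fun i => hv m (F1 i) (some y)) i)
  · cases y with
    | none =>
      obtain ⟨i, hi⟩ := G2.top
      rcases e with _ | e
      · rw [e2, coeff_sc_top hR (hF i).d2, pow_zero, mul_one] at hi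
        exact le_trans (by simp) (hi.ge.trans (le_nv (fun i => hv 0 (F2 i) none) i))
      · simp [coeff_one]
    | some y =>
      have h3 := (G2.ge ((y - a) / R)).1
      simp only [e2, eval_sc' hR] at h3
      simpa using h3

end Crest.Agent.X262.Drop30
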