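import Crest.Agent.X262.Drop30.Defs
import Crest.Agent.X262.Drop30.Side
import Crest.Agent.X262.Vb.Loc
import Crest.Agent.X262.Wd54.Lat
import Crest.Agent.X262.Vb37.Mob
import Crest.Agent.X262.Bub96.NormB
import Crest.Agent.X262.Node22.Gau

/-!
# Row 262, DROP (helper30), part 3: congruent configurations, two-sided configurations

* `Close V N z z' c` : congruent modulo the maximal ideal; `Close.geqN`;
* `nrm_bound`, `np_cfg`, `mul_cfg` : norming data;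
* `tw` : points on the two components of a nodal curve; `gl_eq_tw`, `tw_bound`;
* `eqv_aff` : affine changes of the coordinate.
-/

set_option autoImplicit false
set_option linter.unusedSectionVars false

noncomputable section

namespace Crest.Agent.X262.Drop30

open Crest.Agent.X277 Crest.Agent.X277.BD Crest.Agent.X262.Vb Crest.Agent.X262.Node22 Polynomial
open Crest.Agent.X277.BD.Cyc (Rf plV)
open Crest.Agent.X262.Bub96 (hv)
open Crest.Agent.X262.Bub96.Tr (dot)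
open Crest.Agent.X262.Wd54 (NP Lat)
open Crest.Agent.X262.Vb.Cfg (GeqN Geq)

variable {J : Type} [Fintype J] [DecidableEq J] {io : J → Type} [∀ j, Fintype (io j)]
  [∀ j, DecidableEq (io j)] {K E : Type} [Field K] [Algebra ℂ K] [Field E] [Algebra ℂ E]
  {I I' Q M : Type} [Fintype I] [Fintype I'] [Fintype Q] {N : ℕ}

theorem val_ln {y : Pnt io K} (h : NZ y) (j : J) (V : RZ ℂ K) :
    (ln y j).val V = nv V.v (y j) := by
  obtain ⟨i, hi⟩ := exists_ln h j V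
  exact le_antisymm (hi ▸ le_nv _ i) (nv_le fun i => le_ln y j i V)

theorem np_geqN {w w' : Cfg io Q K} {g : I → Q} (h : NP N w g) (hw : w.NZ) (h' : GeqN N w w') :
    NP N w' g := by
  obtain ⟨c, hc, hy, hV⟩ := h'
  intro κ hκ σ hσ
  rw [hy]
  exact h.gau hw hc κ hκ σ (hV κ hκ ▸ hσ)

theorem par_geqN {w w' : Cfg io Q K} (h : GeqN N w w') (q : Q) : Par (w'.y q) (w.y q) := by
  obtain ⟨c, hc, hy, -⟩ := h
  exact ⟨c q, hc q, congrFun hy q⟩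

theorem lat_congr {z z₁ : Cfg io I K} {z' z₁' : Cfg io I' K} {m : M → I} {m' : M → I'}
    (h : Lat N z m z' m') (h1 : GeqN N z z₁) (h2 : GeqN N z' z₁') : Lat N z₁ m z₁' m' := by
  obtain ⟨Q, hQ, w, g, g', a1, a2, a3, a4, a5, a6, a7⟩ := h
  exact ⟨Q, hQ, w, g, g', a1, a2, a3, a4, GeqN.trans a5 h1, GeqN.trans a6 h2, fun q =>
    ((par_geqN h1 _).trans (a7 q)).trans (par_geqN h2 _).symm⟩

theorem res_red {w : Cfg io Q K} {g : I → Q} (h : NP N w g) (hw : w.NZ) (p : Pl ℂ K ℂ E) :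
    GeqN N ((w.red p).res g) ((w.res g).red p) :=
  GeqN.of_eq rfl fun _ hκ => h.red_V hw p hκ

/-- congruent configurations -/
structure Close (V : RZ ℂ K) (N : ℕ) (z z' : Cfg io Q K) (c : Q → J → K) : Prop where
  y : ∀ q j i, V.v (c q j * z.y q j i - z'.y q j i) < (ln (z'.y q) j).val V
  fwd : ∀ κ : J → ℕ, (∀ j, κ j ≤ N) → ∀ σ ∈ z.V κ, (∀ q, V.v (σ q) ≤ (lw κ (z.y q)).val V) →
    ∃ σ' ∈ z'.V κ, ∀ q, V.v (chr (c q) κ * σ q - σ' q) < (lw κ (z'.y q)).val V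
  fro : ∀ κ : J → ℕ, (∀ j, κ j ≤ N) → ∀ σ' ∈ z'.V κ, (∀ q, V.v (σ' q) ≤ (lw κ (z'.y q)).val V) →
    ∃ σ ∈ z.V κ, ∀ q, V.v (chr (c q) κ * σ q - σ' q) < (lw κ (z'.y q)).val V

theorem r_congr {p : Pl ℂ K ℂ E} {x y : K} (hy : y ∈ p.V.1) (h : p.V.v (x - y) < 1) :
    x ∈ p.V.1 ∧ p.r x = p.r y := by
  have h1 : x - y ∈ p.V.1 := RZ.le_one_iff.1 h.le
  have h2 : x ∈ p.V.1 := by simpa using add_mem h1 hy
  exact ⟨h2, sub_eq_zero.1 (by rw [← Pl.r_sub h2 hy, Pl.r_eq_zero h1]; exact h)⟩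

/-- **congruent configurations have the same reduction** -/
theorem Close.geqN {p : Pl ℂ K ℂ E} {z z' : Cfg io Q K} {c : Q → J → K}
    (h : Close p.V N z z' c) (hz' : z'.NZ) : z.NZ ∧ GeqN N (z.red p) (z'.red p) := by
  set c' := z'.nrm p.V with hc'
  have h0 : ∀ q j, c' q j ≠ 0 := Cfg.nrm_ne p.V z'
  have hP : (z'.gau c').Pr p.V := Cfg.pr_nrm hz' _
  have h1 : ∀ q j, p.V.v (c' q j) * (ln (z'.y q) j).val p.V = 1 := fun q j => by
    rw [Prim.v_eq (hz' q) (h0 q) (hP q) j, inv_mul_cancel₀ (val_ne _ _)]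
  have h2 : ∀ q κ, p.V.v (chr (c' q) κ) * (lw κ (z'.y q)).val p.V = 1 := fun q κ => by
    rw [val_lw, chr, map_prod, ← Finset.prod_mul_distrib]
    exact Finset.prod_eq_one fun j _ => by rw [map_pow, ← mul_pow, h1, one_pow]
  have h3 : ∀ q j i, p.V.v (c' q j * c q j * z.y q j i - c' q j * z'.y q j i) < 1 := fun q j i => by
    rw [mul_assoc, ← mul_sub, map_mul, ← h1 q j]
    exact mul_lt_mul_of_pos_left (h.y q j i) (RZ.pos (h0 q j))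
  have hP1 : (z.gau fun q j => c' q j * c q j).Pr p.V := fun q j =>
    ⟨fun i => (r_congr ((hP q j).1 i) (h3 q j i)).1, (hP q j).2.imp fun i hi =>
      Pl.r_ne_zero_iff.1 ((r_congr ((hP q j).1 i) (h3 q j i)).2 ▸ Pl.r_ne_zero_iff.2 hi)⟩
  have h4 : ∀ q j, ∃ i, c' q j * c q j * z.y q j i ≠ 0 := fun q => (hP1 q).nz
  have h5 : ∀ q j, c' q j * c q j ≠ 0 := fun q j => (h4 q j).elim fun _ => left_ne_zero_of_mul
  have hz : z.NZ := fun q j => (h4 q j).imp fun _ => right_ne_zero_of_mul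
  have h6 : ∀ q κ, p.V.v (chr (fun j => c' q j * c q j) κ) * (lw κ (z.y q)).val p.V = 1 :=
    fun q κ => by
      have h7 := (hP1 q).val_lw κ
      rwa [Cfg.gau_y, lw_scl (hz q) (h5 q), val_add, val_pr (chr_ne (h5 q) κ), mul_comm] at h7
  have h7 : ∀ q κ (a b : K), p.V.v (chr (c q) κ * a - b) < (lw κ (z'.y q)).val p.V →
      p.V.v (chr (fun j => c' q j * c q j) κ * a - chr (c' q) κ * b) < 1 := fun q κ a b hab => by
    rw [show chr (fun j => c' q j * c q j) κ = chr (c' q) κ * chr (c q) κ from chr_mul _ _ κ,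
      mul_assoc, ← mul_sub, map_mul, ← h2 q κ]
    exact mul_lt_mul_of_pos_left hab (RZ.pos (chr_ne (h0 q) κ))
  have h8 : ∀ {s a : K} {γ : p.V.1.ValueGroup}, s ≠ 0 → p.V.v s * γ = 1 → s * a ∈ p.V.1 →
      p.V.v a ≤ γ := fun hs h1 h2 => le_of_mul_le_mul_left
    (by rw [← map_mul, h1]; exact RZ.le_one_iff.2 h2) (RZ.pos hs)
  refine ⟨hz, (((Cfg.geq_gau z h5).red_red0 hP1).geqN N).trans (GeqN.of_eq ?_ fun κ hκ => ?_)⟩
  · funext q j i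
    exact (r_congr ((hP q j).1 i) (h3 q j i)).2.symm
  · refine le_antisymm (redS_le ?_) (redS_le ?_)
    · rintro _ ⟨σ', hσ', rfl⟩ hi
      obtain ⟨σ, hσ, he⟩ := h.fro κ hκ σ' hσ' fun q => h8 (chr_ne (h0 q) κ) (h2 q κ) (hi q)
      have h9 := fun q => r_congr (hi q) (h7 q κ _ _ (he q))
      exact (funext fun q => (h9 q).2 :) ▸ mem_redS p
        (scl_mem (c := fun q => chr (fun j => c' q j * c q j) κ) hσ) fun q => (h9 q).1
    · rintro _ ⟨σ, hσ, rfl⟩ hi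
      obtain ⟨σ', hσ', he⟩ := h.fwd κ hκ σ hσ fun q => h8 (chr_ne (h5 q) κ) (h6 q κ) (hi q)
      have h9 := fun q => r_congr (hi q) (p.V.v.map_sub_swap _ _ ▸ h7 q κ _ _ (he q))
      exact (funext fun q => (h9 q).2 :) ▸ mem_redS p
        (scl_mem (c := fun q => chr (c' q) κ) hσ') fun q => (h9 q).1

/-! ### data -/

variable {d m n : J → ℕ}

theorem mem_cfg {ξ : Dat io d I K} {κ : J → ℕ} {w : I → K} : w ∈ ξ.cfg.V κ ↔
    ∃ σ : K[X], σ.natDegree ≤ dot κ d ∧ w = fun q => hv (dot κ d) σ (ξ.x q) :=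
  ⟨fun ⟨σ, h1, h2⟩ => ⟨σ, natDegree_le_of_degree_le (mem_degreeLE.1 h1), h2.symm⟩,
    fun ⟨σ, h1, h2⟩ => ⟨σ, mem_degreeLE.2 (degree_le_of_natDegree_le h1), h2.symm⟩⟩

theorem nz_cfg (ξ : Dat io d I K) : ξ.cfg.NZ := fun _ => Vb37.nz_pt ξ _

theorem nrm_bound {ξ : Dat io d I K} {κ : J → ℕ} (h : ξ.Nrm κ) (W : RZ ℂ K) {σ : K[X]}
    (hσ : σ.natDegree ≤ dot κ d) {γ : W.1.ValueGroup}
    (hq : ∀ q, W.v (hv (dot κ d) σ (ξ.x q)) ≤ γ * (lw κ (ξ.pt (ξ.x q))).val W) (t : Option K) :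
    W.v (hv (dot κ d) σ t) ≤ γ * (lw κ (ξ.pt t)).val W := by
  obtain ⟨c, rfl⟩ := W.exists_v γ
  by_cases hc : c = 0
  · rw [Bub96.nrm_inj h hσ fun q => by simpa [hc] using hq q]
    cases t <;> simp
  · have h1 := h K (AlgHom.id ℂ K) W (C c⁻¹ * σ) ((natDegree_C_mul_le _ _).trans hσ)
    simp only [Vb37.dmap_id, hv_C_mul, map_mul, map_inv₀, inv_mul_le_iff₀ (RZ.pos hc)] at h1
    exact h1 hq t

theorem np_cfg {ξ : Dat io d Q K} {g : I → Q} (h : (ξ.res g).NrmUp N) : NP N ξ.cfg g := by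
  intro κ hκ _ hσ W γ hq q
  obtain ⟨σ, h1, rfl⟩ := mem_cfg.1 hσ
  exact nrm_bound (h κ hκ) W h1 hq _

theorem dot_single (j : J) (d : J → ℕ) : dot (Pi.single j 1) d = d j := by
  rw [dot, Finset.sum_eq_single j (fun j' _ h => by simp [h]) (by simp)]
  simp

theorem mul_cfg (ξ : Dat io d I K) : ξ.cfg.Mul where
  one := mem_cfg.2 ⟨1, by simp, funext fun q => by cases ξ.x q <;> simp [dot]⟩
  crd j i := mem_cfg.2 ⟨ξ.f j i, by rw [dot_single]; exact ξ.cp.1 j i, by rw [dot_single]; rfl⟩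
  mul κ κ' u u' hu hu' := by
    obtain ⟨σ, h1, rfl⟩ := mem_cfg.1 hu
    obtain ⟨σ', h1', rfl⟩ := mem_cfg.1 hu'
    have h2 : dot (κ + κ') d = dot κ d + dot κ' d := by
      simp [dot, add_mul, Finset.sum_add_distrib]
    exact mem_cfg.2 ⟨σ * σ', h2 ▸ natDegree_mul_le.trans (add_le_add h1 h1'),
      funext fun q => by rw [h2, hv_mul h1 h1']; rfl⟩

variable {I₁ I₂ : Type} [Fintype I₁] [Fintype I₂]

/-- points on the two components of a nodal curve -/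
def tw (ξ₁ : Dat io m I₁ K) (ξ₂ : Dat io n I₂ K) (a : K) (u : Q → Option K ⊕ Option K) :
    Cfg io Q K where
  y q := (u q).elim ξ₁.pt ξ₂.pt
  V κ :=
    { carrier := {w | ∃ σ₁ σ₂ : K[X], σ₁.natDegree ≤ dot κ m ∧ σ₂.natDegree ≤ dot κ n ∧
        σ₁.coeff (dot κ m) = σ₂.eval a ∧
        w = fun q => (u q).elim (hv (dot κ m) σ₁) (hv (dot κ n) σ₂)}
      add_mem' := by
        rintro _ _ ⟨σ₁, σ₂, h1, h2, h3, rfl⟩ ⟨τ₁, τ₂, h1', h2', h3', rfl⟩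
        refine ⟨σ₁ + τ₁, σ₂ + τ₂, (natDegree_add_le _ _).trans (max_le h1 h1'),
          (natDegree_add_le _ _).trans (max_le h2 h2'), by simp [h3, h3'], funext fun q => ?_⟩
        rw [Pi.add_apply]
        cases u q <;> simp [hv_add]
      zero_mem' := ⟨0, 0, by simp, by simp, by simp, funext fun q => by
        rcases u q with (_ | _) | (_ | _) <;> simp⟩
      smul_mem' := by
        rintro c _ ⟨σ₁, σ₂, h1, h2, h3, rfl⟩
        refine ⟨C c * σ₁, C c * σ₂, (natDegree_C_mul_le _ _).trans h1,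
          (natDegree_C_mul_le _ _).trans h2, by simp [h3], funext fun q => ?_⟩
        rw [Pi.smul_apply]
        cases u q <;> simp [hv_C_mul] }

variable {ξ₁ : Dat io m I₁ K} {ξ₂ : Dat io n I₂ K} {a : K} {u : Q → Option K ⊕ Option K}

theorem nz_tw : (tw ξ₁ ξ₂ a u).NZ := fun q => by
  change NZ ((u q).elim ξ₁.pt ξ₂.pt)
  cases u q <;> exact Vb37.nz_pt _ _

theorem tw_res (g : I → Q) : (tw ξ₁ ξ₂ a u).res g = tw ξ₁ ξ₂ a (u ∘ g) :=
  Cfg.ext (fun _ => rfl) fun κ => by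
    ext w
    constructor
    · rintro ⟨_, ⟨σ₁, σ₂, h1, h2, h3, rfl⟩, rfl⟩
      exact ⟨σ₁, σ₂, h1, h2, h3, rfl⟩
    · rintro ⟨σ₁, σ₂, h1, h2, h3, rfl⟩
      exact ⟨_, ⟨σ₁, σ₂, h1, h2, h3, rfl⟩, rfl⟩

theorem gl_eq_tw {n₁ : I₁} {n₂ : I₂} (h1 : ξ₁.x n₁ = none) (h2 : ξ₂.x n₂ = some a)
    (h : ξ₁.pt none = ξ₂.pt (some a)) : gl ξ₁ n₁ ξ₂ n₂ = tw ξ₁ ξ₂ a (Sum.map ξ₁.x ξ₂.x) := by
  refine Cfg.ext (fun q => by cases q <;> rfl) fun κ => ?_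
  ext w
  rw [gl, mem_jn (c := 1) (by
    change ξ₁.pt (ξ₁.x n₁) = scl 1 (ξ₂.pt (ξ₂.x n₂))
    rw [h1, h2, h, scl_one]) (Vb37.nz_pt ξ₂ _), mem_pair, mem_cfg, mem_cfg, chr_one, one_mul]
  constructor
  · rintro ⟨⟨⟨σ₁, a1, b1⟩, σ₂, a2, b2⟩, h3⟩
    refine ⟨σ₁, σ₂, a1, a2, ?_, funext fun q => ?_⟩
    · rwa [congrFun b1 n₁, congrFun b2 n₂, h1, h2] at h3
    · cases q with
      | inl q => exact congrFun b1 q
      | inr q => exact congrFun b2 q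
  · rintro ⟨σ₁, σ₂, a1, a2, h3, rfl⟩
    refine ⟨⟨⟨σ₁, a1, rfl⟩, σ₂, a2, rfl⟩, ?_⟩
    change hv _ σ₁ (ξ₁.x n₁) = hv _ σ₂ (ξ₂.x n₂)
    rwa [h1, h2]

theorem np_tw {g : I₁ ⊕ I₂ → Q} (hg : u ∘ g = Sum.map ξ₁.x ξ₂.x) (h1 : ξ₁.NrmUp N)
    (h2 : ξ₂.NrmUp N) : NP N (tw ξ₁ ξ₂ a u) g := by
  rintro κ hκ _ ⟨σ₁, σ₂, a1, a2, -, rfl⟩ W γ hq q
  have b1 := nrm_bound (h1 κ hκ) W a1 (γ := γ) fun q => by
    have h3 := hq (.inl q)
    simp only [tw, show u (g (.inl q)) = .inl (ξ₁.x q) from congrFun hg _] at h3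
    exact h3
  have b2 := nrm_bound (h2 κ hκ) W a2 (γ := γ) fun q => by
    have h3 := hq (.inr q)
    simp only [tw, show u (g (.inr q)) = .inr (ξ₂.x q) from congrFun hg _] at h3
    exact h3
  simp only [tw]
  cases u q with
  | inl t => exact b1 t
  | inr t => exact b2 t

theorem gl_geq {ζ₁ : Dat io m I₁ K} {ζ₂ : Dat io n I₂ K} (h1 : ξ₁.Eqv ζ₁) (h2 : ξ₂.Eqv ζ₂)
    (n₁ : I₁) (n₂ : I₂) : Geq (gl ξ₁ n₁ ξ₂ n₂) (gl ζ₁ n₁ ζ₂ n₂) := by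
  obtain ⟨c₁, a1, b1⟩ := Vb37.eqv_cfg h1
  obtain ⟨c₂, a2, b2⟩ := Vb37.eqv_cfg h2
  have hc : ∀ q j, Sum.elim c₁ c₂ q j ≠ 0 := fun q => by
    cases q
    · exact a1 _
    · exact a2 _
  refine ⟨Sum.elim c₁ c₂, hc, ?_⟩
  rw [gl, gl, jn_gau hc, pair_gau _ _ hc, b1, b2]
  rfl

theorem nz_gl (n₁ : I₁) (n₂ : I₂) : (gl ξ₁ n₁ ξ₂ n₂).NZ := fun q => by
  cases q <;> exact Vb37.nz_pt _ _

theorem mob_aff {e : ℕ} {f : K[X]} (h : f.natDegree ≤ e) (a ρ : K) :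
    mob e !![ρ, a; 0, 1] f = sc a ρ f := by
  conv_rhs => rw [as_sum_range' f _ (Nat.lt_succ_of_le h), map_sum]
  refine Finset.sum_congr rfl fun l _ => ?_
  simp [← C_mul_X_pow_eq_monomial, add_comm]

theorem cp_aff {f : (j : J) → io j → K[X]} (h : Cp d f) {s : J → K} (hs : ∀ j, s j ≠ 0) (a : K)
    {ρ : K} (hρ : ρ ≠ 0) : Cp d fun j i => C (s j) * sc a ρ (f j i) := by
  simpa only [mob_aff (h.1 _ _)] using
    Vb37.cp_mob h (g := !![ρ, a; 0, 1]) (by simpa using hρ) hs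

theorem eqv_aff {ξ η : Dat io d I K} {s : J → K} (hs : ∀ j, s j ≠ 0) {ρ : K} (hρ : ρ ≠ 0)
    (hf : ∀ j i, η.f j i = C (s j) * sc a ρ (ξ.f j i))
    (hx : ∀ q, ξ.x q = (η.x q).map fun t => a + ρ * t) : ξ.Eqv η := by
  refine ⟨!![ρ, a; 0, 1], s, by simpa using hρ, hs, fun j i => by rw [hf, mob_aff (ξ.cp.1 j i)],
    fun q => ?_⟩
  rw [hx]
  cases η.x q with
  | none => exact ⟨ρ, by funext i; fin_cases i <;> simp [Vb.hx]⟩
  | some t => exact ⟨1, by funext i; fin_cases i <;> simp [Vb.hx, add_comm, mul_comm]⟩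

end Crest.Agent.X262.Drop30
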