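import Crest.Agent.X262.Drop30.Close

/-!
# Row 262, DROP (helper30), part 4: the reduction of a datum is the reduction of its two sides
-/

set_option autoImplicit false
set_option linter.unusedSectionVars false

noncomputable section

namespace Crest.Agent.X262.Drop30

open Crest.Agent.X277 Crest.Agent.X277.BD Crest.Agent.X262.Vb Crest.Agent.X262.Node22 Polynomial
open Crest.Agent.X277.BD.Cyc (Rf plV)
open Crest.Agent.X262.Bub96 (hv)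
open Crest.Agent.X262.Bub96.Tr (dot)
open Crest.Agent.X262.Wd54 (NP Lat)
open Crest.Agent.X262.Vb.Cfg (GeqN Geq)

variable {J : Type} [Fintype J] [DecidableEq J] {io : J → Type} [∀ j, Fintype (io j)]
  [∀ j, DecidableEq (io j)] {K : Type} [Field K] [Algebra ℂ K]
  {I I₁ I₂ Q M : Type} [Fintype I] [Fintype I₁] [Fintype I₂] [Fintype Q] {N : ℕ}
  {m n : J → ℕ} {V : RZ ℂ K} {a ρ1 ρ2 : K} {Pi Po : J → K[X]}

theorem triv (V : RZ ℂ K) : Triv V.v := fun n hn => by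
  rw [← map_natCast (algebraMap ℂ K)]
  exact V.v_alg (Nat.cast_ne_zero.2 hn)

theorem lw_le {y : Pnt io K} (h : NZ y) (κ : J → ℕ) {γ : J → V.1.ValueGroup}
    (hγ : ∀ j, nv V.v (y j) ≤ γ j) : (lw κ y).val V ≤ ∏ j, γ j ^ κ j := by
  rw [val_lw]
  exact Finset.prod_le_prod' fun j _ => pow_le_pow_left' ((val_ln h j V).trans_le (hγ j)) _

theorem le_lw {y : Pnt io K} (h : NZ y) (κ : J → ℕ) {c : J → K}
    (hc : ∀ j, V.v (c j) ≤ nv V.v (y j)) : V.v (∏ j, c j ^ κ j) ≤ (lw κ y).val V := by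
  rw [val_lw, map_prod]
  exact Finset.prod_le_prod' fun j _ => by
    rw [map_pow]
    exact pow_le_pow_left' ((hc j).trans_eq (val_ln h j V).symm) _

theorem prod_pow_dot {Γ : Type*} [CommMonoid Γ] (γ : Γ) (κ m : J → ℕ) :
    ∏ j, (γ ^ m j) ^ κ j = γ ^ dot κ m := by
  simp only [← pow_mul, Finset.prod_pow_eq_pow_sum, dot, mul_comm (m _)]

theorem hv_prod_pow {P : J → K[X]} (h : ∀ j, (P j).natDegree ≤ m j) (κ : J → ℕ) (y : Option K) :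
    hv (dot κ m) (∏ j, P j ^ κ j) y = ∏ j, hv (m j) (P j) y ^ κ j :=
  (hv_prod _ (fun j => natDegree_pow_le_of_le _ (h j)) y).trans
    (Finset.prod_congr rfl fun j _ => hv_pow (h j) _ y)

variable [IsAlgClosed K] {ξ : Dat io (fun j => m j + n j) Q K} {ξ₁ : Dat io m I₁ K}
  {ξ₂ : Dat io n I₂ K}

/-- **a datum is congruent to its two sides** -/
theorem close_side
    (h : ∀ j, Sd V.v a ρ1 ρ2 (m j) (n j) (Pi j) (Po j) (ξ.f j) (ξ₁.f j) (ξ₂.f j))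
    (h1 : ρ1 ≠ 0) (h2 : ρ2 ≠ 0) (μ : Q → Mt K) (hμ : ∀ q, (μ q).Ok V.v a ρ1 ρ2)
    (hx : ∀ q, ξ.x q = (μ q).y) (hN : ξ.NrmUp N) {g : I₁ ⊕ I₂ → Q}
    (hg : (fun q => (μ q).u) ∘ g = Sum.map ξ₁.x ξ₂.x) (hN₁ : ξ₁.NrmUp N) (hN₂ : ξ₂.NrmUp N) :
    Close V N ξ.cfg (tw ξ₁ ξ₂ a fun q => (μ q).u) fun q j => (μ q).cf (m j) (Pi j) (Po j) := by
  have hS : ∀ κ : J → ℕ, Spl V.v a ρ1 ρ2 (dot κ m) (dot κ n) (∏ j, Pi j ^ κ j) (∏ j, Po j ^ κ j) :=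
    fun κ => Spl.prod h1 h2 _ fun j => (h j).spl.pow _
  have key : ∀ (κ : J → ℕ) (σ σ1 σ2 : K[X]),
      Rel a (dot κ m) (dot κ n) (∏ j, Pi j ^ κ j) (∏ j, Po j ^ κ j) σ σ1 σ2 →
      (∀ ρ, Rad V.v a ρ (dot κ m) (∏ j, Pi j ^ κ j) (∏ j, Po j ^ κ j) →
        (∀ j i, Rad V.v a ρ (m j) (Pi j) (Po j) ∧
          Bd V.v a ρ (m j) (Pi j) (ξ₁.f j i) (ξ₂.f j i) 1) →
        Bd V.v a ρ (dot κ m) (∏ j, Pi j ^ κ j) σ1 σ2 1) →
      ∀ q, V.v (chr (fun j => (μ q).cf (m j) (Pi j) (Po j)) κ *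
          hv (dot κ fun j => m j + n j) σ (ξ.x q) -
          (μ q).u.elim (hv (dot κ m) σ1) (hv (dot κ n) σ2)) <
        (lw κ ((μ q).u.elim ξ₁.pt ξ₂.pt)).val V := fun κ σ σ1 σ2 hR hB q => by
    rw [Bub96.Tr.dot_add, hx, chr, ← Mt.cf_prod κ m Pi Po fun j => (h j).spl.di.le]
    refine Mt.est (hS κ) hR (hB _ (hS κ).r1 fun j i => ⟨(h j).spl.r1, (h j).b1 i⟩)
      (hB _ (hS κ).r2 fun j i => ⟨(h j).spl.r2, (h j).b2 i⟩) (hμ q) (val_ne _ _) ?_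
    cases (μ q).u with
    | inl t =>
      rw [Sum.elim_inl, Sum.elim_inl, hv_prod_pow fun j => (h j).spl.di.le]
      exact le_lw (Vb37.nz_pt _ _) κ fun j => (h j).hi t
    | inr t =>
      rw [Sum.elim_inr, Sum.elim_inr, hv_prod_pow fun j => (h j).spl.dO]
      exact le_lw (Vb37.nz_pt _ _) κ fun j => (h j).ho t
  refine ⟨fun q j i => ?_, fun κ hκ w hw hb => ?_, ?_⟩
  · have h3 := Mt.est (η := (ln ((μ q).u.elim ξ₁.pt ξ₂.pt) j).val V) (h j).spl ((h j).rel i)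
      ((h j).b1 i) ((h j).b2 i) (hμ q) (val_ne _ _) (by
        cases (μ q).u with
        | inl t => exact ((h j).hi t).trans_eq (val_ln (Vb37.nz_pt ξ₁ t) j V).symm
        | inr t => exact ((h j).ho t).trans_eq (val_ln (Vb37.nz_pt ξ₂ t) j V).symm)
    rw [← hx] at h3
    simp only [tw]
    revert h3
    cases (μ q).u <;> exact id
  · obtain ⟨σ, hσ, rfl⟩ := mem_cfg.1 hw
    have hall := nrm_bound (hN κ hκ) V hσ (γ := 1) fun q => (hb q).trans_eq (one_mul _).symm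
    obtain ⟨σ1, σ2, hR⟩ := (hS κ).exists_rel (σ := σ) (by rwa [← Bub96.Tr.dot_add])
    refine ⟨_, ⟨σ1, σ2, hR.d1, hR.d2, hR.node, rfl⟩, key κ σ σ1 σ2 hR fun ρ hρ hB =>
      hR.bd_of_le (hS κ).monic (hS κ).di hρ (circ (triv V) fun y hy => ?_)⟩
    refine (hall (some y)).trans (mul_le_mul' le_rfl ?_)
    rw [← prod_pow_dot]
    exact lw_le (Vb37.nz_pt _ _) κ fun j => nv_circ hρ.ne (fun i => by
      simpa only [one_mul] using ((h j).rel i).le_of_bd (hB j i).1 (hB j i).2) hy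
  · rintro κ hκ _ ⟨σ1, σ2, d1, d2, hn, rfl⟩ hb
    have hR := Spl.rel_mk (Pi := ∏ j, Pi j ^ κ j) (Po := ∏ j, Po j ^ κ j) d1 d2 hn
    have b1 := nrm_bound (hN₁ κ hκ) V d1 (γ := 1) fun q => by
      have h3 := hb (g (.inl q))
      simp only [tw, show (μ (g (.inl q))).u = .inl (ξ₁.x q) from congrFun hg _] at h3
      exact h3.trans_eq (one_mul _).symm
    have b2 := nrm_bound (hN₂ κ hκ) V d2 (γ := 1) fun q => by
      have h3 := hb (g (.inr q))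
      simp only [tw, show (μ (g (.inr q))).u = .inr (ξ₂.x q) from congrFun hg _] at h3
      exact h3.trans_eq (one_mul _).symm
    refine ⟨_, mem_cfg.2 ⟨_, by rw [Bub96.Tr.dot_add]; exact hR.natDegree_le (hS κ), rfl⟩,
      key κ _ σ1 σ2 hR fun ρ hρ hB => hR.bd_of_pair hρ (circ (triv V) fun y hy => ?_)
        (circ (triv V) fun y hy => ?_)⟩
    · refine (b1 (some y)).trans (mul_le_mul' le_rfl ?_)
      rw [← prod_pow_dot]
      exact lw_le (Vb37.nz_pt _ _) κ fun j => nv_circ hρ.ne (fun i => by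
        simpa only [one_mul] using ((h j).rel i).le1_of_bd (hB j i).1 (hB j i).2) hy
    · refine (b2 (some y)).trans ?_
      simpa using lw_le (Vb37.nz_pt ξ₂ (some y)) κ (γ := fun _ => 1)
        fun j => nv_circ hρ.ne (fun i => (hB j i).2.o) hy

/-- inside the outer circle -/
def Ins (V : RZ ℂ K) (a ρ : K) (y : Option K) : Prop := ∃ t, y = some t ∧ V.v (t - a) < V.v ρ

theorem out_of_not (h : V.v ρ1 < V.v ρ2) {y : Option K} (hy : ¬ Ins V a ρ2 y) :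
    Out V.v a ρ1 y := fun t ht => h.trans_le (le_of_not_gt fun h1 => hy ⟨t, ht, h1⟩)

theorem lat_side0 {ξ : Dat io (fun j => m j + n j) I K}
    (h : ∀ j, Sd V.v a ρ1 ρ2 (m j) (n j) (Pi j) (Po j) (ξ.f j) (ξ₁.f j) (ξ₂.f j))
    (h1 : ρ1 ≠ 0) {y : K} (hy : V.v ρ1 < V.v (y - a)) (hy' : V.v (y - a) < V.v ρ2)
    (hN : ξ.NrmUp N) (hN₁ : ξ₁.NrmUp N) (hN₂ : ξ₂.NrmUp N) {n₁ : I₁} {n₂ : I₂}
    (e₁ : ξ₁.x n₁ = none) (e₂ : ξ₂.x n₂ = some a) (g : M → I) (g' : M → I₁ ⊕ I₂)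
    (hg : ∀ i, (g' i).elim (fun q => Ins V a ρ2 (ξ₁.x q) ∧ ξ₁.x q = ξ.x (g i))
      fun q => Out V.v a ρ1 (ξ₂.x q) ∧ ξ₂.x q = ξ.x (g i)) :
    Lat N (ξ.cfg.red (plV V)) g ((gl ξ₁ n₁ ξ₂ n₂).red (plV V)) g' := by
  have h12 := hy.trans hy'
  have h2 : ρ2 ≠ 0 := fun h0 => by simp [h0] at h12
  have c0 : ∀ x : Option K, ∃ μ : Mt K, μ.Ok V.v a ρ1 ρ2 ∧ μ.y = x := fun x => by
    by_cases hx : Ins V a ρ2 x
    · obtain ⟨t, rfl, ht⟩ := hx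
      exact ⟨.ins t, ht, rfl⟩
    · exact ⟨.out x, out_of_not h12 hx, rfl⟩
  have c1 : ∀ x : Option K, ∃ μ : Mt K, μ.Ok V.v a ρ1 ρ2 ∧ μ.u = .inl x ∧
      (Ins V a ρ2 x → μ.y = x) := fun x => by
    by_cases hx : Ins V a ρ2 x
    · obtain ⟨t, rfl, ht⟩ := hx
      exact ⟨.ins t, ht, rfl, fun _ => rfl⟩
    · exact ⟨.nin y x, ⟨hy, hy', out_of_not h12 hx⟩, rfl, fun h0 => (hx h0).elim⟩
  have c2 : ∀ x : Option K, ∃ μ : Mt K, μ.Ok V.v a ρ1 ρ2 ∧ μ.u = .inr x ∧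
      (Out V.v a ρ1 x → μ.y = x) := fun x => by
    by_cases hx : Out V.v a ρ1 x
    · exact ⟨.out x, hx, rfl, fun _ => rfl⟩
    · obtain ⟨t, rfl, ht⟩ : Ins V a ρ2 x := by_contra fun h0 => hx (out_of_not h12 h0)
      exact ⟨.nout y t, ⟨hy, hy', ht⟩, rfl, fun h0 => (hx h0).elim⟩
  choose μ0 a0 b0 using c0
  choose μ1 a1 b1 d1 using c1
  choose μ2 a2 b2 d2 using c2
  let μ : I ⊕ I₁ ⊕ I₂ → Mt K :=
    Sum.elim (fun q => μ0 (ξ.x q)) (Sum.elim (fun q => μ1 (ξ₁.x q)) fun q => μ2 (ξ₂.x q))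
  let ξ' : Dat io (fun j => m j + n j) (I ⊕ I₁ ⊕ I₂) K := ⟨ξ.f, fun q => (μ q).y, ξ.cp⟩
  have r1 : ξ'.res Sum.inl = ξ := Vb37.dat_ext rfl (funext fun q => b0 _)
  have r2 : (fun q => (μ q).u) ∘ Sum.inr = Sum.map ξ₁.x ξ₂.x := funext fun q => by
    cases q
    · exact b1 _
    · exact b2 _
  have n1 : NP N ξ'.cfg Sum.inl := np_cfg (r1.symm ▸ hN)
  have n2 := np_tw (a := a) r2 hN₁ hN₂
  have hC := ((close_side (ξ := ξ') h h1 h2 μ (fun q => by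
    rcases q with q | q | q
    exacts [a0 _, a1 _, a2 _]) (fun _ => rfl) (Vb37.nrmUp_of_res _ (r1.symm ▸ hN)) r2 hN₁
    hN₂).geqN (p := plV V) nz_tw).2
  have g1 : GeqN N ((ξ'.cfg.red (plV V)).res Sum.inl) (ξ.cfg.red (plV V)) := by
    have h3 := res_red n1 (nz_cfg _) (plV V)
    rwa [← Vb37.cfg_res, r1] at h3
  have g2 : GeqN N ((ξ'.cfg.red (plV V)).res Sum.inr) ((gl ξ₁ n₁ ξ₂ n₂).red (plV V)) := by
    have h3 := (hC.res Sum.inr).trans (res_red n2 nz_tw (plV V))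
    rwa [tw_res, r2, ← gl_eq_tw e₁ e₂ (funext fun j => funext fun i => ((h j).rel i).node)] at h3
  refine ⟨_, inferInstance, ξ'.cfg.red (plV V), Sum.inl, Sum.inr, (nz_cfg _).red _,
    .of_cfg ((mul_cfg _).red (nz_cfg _) _), n1.red (nz_cfg _) V,
    np_geqN (n2.red nz_tw V) (nz_tw.red _) hC.symm, g1, g2, fun i => ?_⟩
  refine ((par_geqN g1 _).trans ?_).trans (par_geqN g2 _).symm
  have h3 : (μ (.inl (g i))).y = (μ (.inr (g' i))).y := by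
    have h4 := hg i
    revert h4
    rcases g' i with q | q
    · exact fun h4 => (b0 _).trans (h4.2.symm.trans (d1 _ h4.1).symm)
    · exact fun h4 => (b0 _).trans (h4.2.symm.trans (d2 _ h4.1).symm)
  change Par (Wd54.rp _ (ξ'.pt (μ (.inl (g i))).y)) (Wd54.rp _ (ξ'.pt (μ (.inr (g' i))).y))
  rw [h3]
  exact Par.refl _

theorem sc_zero_one (f : K[X]) : sc 0 1 f = f := by simp [sc_apply]

/-- **the reduction of a datum is the reduction of its normalised sides** -/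
theorem lat_side {d : J → ℕ} (hd : ∀ j, m j + n j = d j) {ξ : Dat io d I K} {s : J → K}
    (hs : ∀ j, s j ≠ 0) {F1 F2 : (j : J) → io j → K[X]}
    (h : ∀ j, Sd V.v a ρ1 ρ2 (m j) (n j) (Pi j) (Po j) (fun i => C (s j) * ξ.f j i) (F1 j) (F2 j))
    (h1 : ρ1 ≠ 0) {y : K} (hy : V.v ρ1 < V.v (y - a)) (hy' : V.v (y - a) < V.v ρ2)
    {ζ₁ : Dat io m I₁ K} {ζ₂ : Dat io n I₂ K} {s₁ s₂ : J → K} (hs₁ : ∀ j, s₁ j ≠ 0)
    (hs₂ : ∀ j, s₂ j ≠ 0) {ρ R : K} (hρ : ρ ≠ 0) (hR : R ≠ 0)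
    (f₁ : ∀ j i, ζ₁.f j i = C (s₁ j) * sc a ρ (F1 j i))
    (f₂ : ∀ j i, ζ₂.f j i = C (s₂ j) * sc a R (F2 j i))
    (hN : ξ.NrmUp N) (hN₁ : ζ₁.NrmUp N) (hN₂ : ζ₂.NrmUp N) {n₁ : I₁} {n₂ : I₂}
    (e₁ : ζ₁.x n₁ = none) (e₂ : ζ₂.x n₂ = some 0) (g : M → I) (g' : M → I₁ ⊕ I₂)
    (hg : ∀ i, (g' i).elim (fun q => Ins V a ρ2 (ξ.x (g i)) ∧ ζ₁.x q = nx a ρ (ξ.x (g i)))
      fun q => Out V.v a ρ1 (ξ.x (g i)) ∧ ζ₂.x q = nx a R (ξ.x (g i))) :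
    Lat N (ξ.cfg.red (plV V)) g ((gl ζ₁ n₁ ζ₂ n₂).red (plV V)) g' := by
  obtain rfl : (fun j => m j + n j) = d := funext hd
  have hc : ∀ j t, ∃ i, hv (m j + n j) (C (s j) * ξ.f j i) t ≠ 0 := fun j t =>
    (Vb37.cp_hv ξ.cp j t).imp fun i hi => by rw [hv_C_mul]; exact mul_ne_zero (hs j) hi
  let ξ₀ : Dat io (fun j => m j + n j) I K := ⟨fun j i => C (s j) * ξ.f j i, ξ.x, by
    simpa only [sc_zero_one] using cp_aff ξ.cp hs 0 one_ne_zero⟩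
  let ξ₁ : Dat io m I₁ K := ⟨F1, fun q => (ζ₁.x q).map fun t => a + ρ * t,
    Vb37.cp_of_closed (RingHom.id K) (fun j i => ((h j).rel i).d1) fun j t => by
      simpa only [Polynomial.map_id] using (h j).cop1 (hc j) t⟩
  let ξ₂ : Dat io n I₂ K := ⟨F2, fun q => (ζ₂.x q).map fun t => a + R * t,
    Vb37.cp_of_closed (RingHom.id K) (fun j i => ((h j).rel i).d2) fun j t => by
      simpa only [Polynomial.map_id] using (h j).cop2 (hc j) t⟩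
  have q0 : ξ.Eqv ξ₀ := eqv_aff (a := 0) hs one_ne_zero (fun j i => by rw [sc_zero_one])
    fun q => by simp [ξ₀]
  have q1 : ξ₁.Eqv ζ₁ := eqv_aff hs₁ hρ f₁ fun _ => rfl
  have q2 : ξ₂.Eqv ζ₂ := eqv_aff hs₂ hR f₂ fun _ => rfl
  have hx : ∀ {r : K}, r ≠ 0 → ∀ x : Option K, ((nx a r x).map fun t => a + r * t) = x :=
    fun hr x => by cases x <;> simp [nx, mul_div_cancel₀ _ hr]
  have h2 := lat_side0 (ξ := ξ₀) (ξ₁ := ξ₁) (ξ₂ := ξ₂) h h1 hy hy' (Vb37.eqv_nrmUp q0 hN)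
    (Vb37.eqv_nrmUp (Vb37.eqv_symm q1) hN₁) (Vb37.eqv_nrmUp (Vb37.eqv_symm q2) hN₂) (n₁ := n₁)
    (n₂ := n₂) (by simp [ξ₁, e₁]) (by simp [ξ₂, e₂]) g g' fun i => by
      have h4 := hg i
      revert h4
      rcases g' i with q | q
      · intro h4
        have h5 : ξ₁.x q = ξ.x (g i) := by simp only [ξ₁, h4.2, hx hρ]
        exact ⟨h5 ▸ h4.1, h5⟩
      · intro h4
        have h5 : ξ₂.x q = ξ.x (g i) := by simp only [ξ₂, h4.2, hx hR]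
        exact ⟨h5 ▸ h4.1, h5⟩
  exact lat_congr h2 ((Geq.red (Geq.symm (Vb37.eqv_cfg q0)) (nz_cfg _) _).geqN N)
    (((gl_geq q1 q2 n₁ n₂).red (nz_gl _ _) _).geqN N)

end Crest.Agent.X262.Drop30
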