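import Crest.Agent.X262.Bub96.Defs

/-!
# Row 262, DROP (helper30), part 0: coefficient bounds for polynomials over a valued field

* `Le v f γ`, `Lt v f γ` : all coefficients have value `≤ γ`, `< γ`;
* `le_of_eval` : a bound on the unit circle is a bound on the coefficients;
* `key` : partial fractions do not increase the bound;
* `sc a ρ` : the substitution `X ↦ a + ρ X`.
-/

set_option autoImplicit false

namespace Crest.Agent.X262.Drop30

open Polynomial

variable {K : Type*} [Field K] {Γ : Type*} [LinearOrderedCommGroupWithZero Γ]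
  {v : Valuation K Γ}

/-- all coefficients have value at most `γ` -/
def Le (v : Valuation K Γ) (f : K[X]) (γ : Γ) : Prop := ∀ n, v (f.coeff n) ≤ γ

/-- all coefficients have value less than `γ` -/
def Lt (v : Valuation K Γ) (f : K[X]) (γ : Γ) : Prop := ∀ n, v (f.coeff n) < γ

variable {f g : K[X]} {γ δ : Γ}

theorem Lt.le (h : Lt v f γ) : Le v f γ := fun n => (h n).le

theorem Lt.ne (h : Lt v f γ) : γ ≠ 0 := fun h0 => not_lt_zero (h0 ▸ h 0)

theorem Le.mono (h : Le v f γ) (h' : γ ≤ δ) : Le v f δ := fun n => (h n).trans h'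

theorem Le.lt (h : Le v f γ) (h' : γ < δ) : Lt v f δ := fun n => (h n).trans_lt h'

theorem Lt.mono (h : Lt v f γ) (h' : γ ≤ δ) : Lt v f δ := fun n => (h n).trans_le h'

theorem Le.add (hf : Le v f γ) (hg : Le v g γ) : Le v (f + g) γ := fun n => by
  rw [coeff_add]
  exact v.map_add_le (hf n) (hg n)

theorem Le.sub (hf : Le v f γ) (hg : Le v g γ) : Le v (f - g) γ := fun n => by
  rw [coeff_sub]
  exact v.map_sub_le (hf n) (hg n)

theorem Lt.add (hf : Lt v f γ) (hg : Lt v g γ) : Lt v (f + g) γ := fun n => by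
  rw [coeff_add]
  exact v.map_add_lt (hf n) (hg n)

theorem Lt.sub (hf : Lt v f γ) (hg : Lt v g γ) : Lt v (f - g) γ := fun n => by
  rw [coeff_sub]
  exact v.map_sub_lt (hf n) (hg n)

theorem Le.mul (hf : Le v f γ) (hg : Le v g δ) : Le v (f * g) (γ * δ) := fun n => by
  rw [coeff_mul]
  refine v.map_sum_le fun p _ => ?_
  rw [map_mul]
  exact mul_le_mul' (hf _) (hg _)

theorem Le.mul_lt (hf : Le v f γ) (hg : Lt v g δ) (h0 : γ ≠ 0) : Lt v (f * g) (γ * δ) := fun n => by
  rw [coeff_mul]
  refine v.map_sum_lt (mul_ne_zero h0 hg.ne) fun p _ => ?_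
  rw [map_mul]
  exact mul_lt_mul_of_le_of_lt_of_nonneg_of_pos (hf _) (hg _) zero_le (zero_lt_iff.2 h0)

theorem Lt.mul_le (hf : Lt v f γ) (hg : Le v g δ) (h0 : δ ≠ 0) : Lt v (f * g) (γ * δ) := by
  rw [mul_comm f, mul_comm γ]
  exact hg.mul_lt hf h0

theorem le_zero (γ : Γ) : Le v 0 γ := fun n => by simp

theorem lt_zero (h : γ ≠ 0) : Lt v 0 γ := fun n => by simpa using zero_lt_iff.2 h

theorem le_monomial (n : ℕ) (c : K) : Le v (monomial n c) (v c) := fun m => by
  rw [coeff_monomial]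
  split_ifs <;> simp

theorem le_C (c : K) : Le v (C c) (v c) := le_monomial 0 c

theorem le_one : Le v 1 1 := by simpa using le_C (v := v) 1

theorem le_X_pow (n : ℕ) : Le v (X ^ n) 1 := by
  simpa [← monomial_one_right_eq_X_pow] using le_monomial (v := v) n 1

theorem le_X : Le v X 1 := by simpa using le_X_pow (v := v) 1

theorem Le.C_mul (hf : Le v f γ) (c : K) : Le v (C c * f) (v c * γ) := (le_C c).mul hf

theorem Lt.C_mul (hf : Lt v f γ) {c : K} (hc : c ≠ 0) : Lt v (C c * f) (v c * γ) :=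
  (le_C c).mul_lt hf (by simpa using hc)

theorem Le.sum {ι : Type*} (s : Finset ι) {F : ι → K[X]} (h : ∀ i ∈ s, Le v (F i) γ) :
    Le v (∑ i ∈ s, F i) γ := fun n => by
  rw [finsetSum_coeff]
  exact v.map_sum_le fun i hi => h i hi n

theorem Le.prod {ι : Type*} (s : Finset ι) {F : ι → K[X]} {c : ι → Γ}
    (h : ∀ i ∈ s, Le v (F i) (c i)) : Le v (∏ i ∈ s, F i) (∏ i ∈ s, c i) := by
  classical
  induction s using Finset.induction_on with
  | empty => simpa using le_one
  | insert a s ha ih =>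
    rw [Finset.prod_insert ha, Finset.prod_insert ha]
    exact (h a (Finset.mem_insert_self _ _)).mul (ih fun i hi => h i (Finset.mem_insert_of_mem hi))

theorem Le.eq_zero (h : Le v f 0) : f = 0 := by
  ext n
  simpa using h n

theorem Le.eval (hf : Le v f γ) {u : K} (hu : v u ≤ 1) : v (f.eval u) ≤ γ := by
  rw [eval_eq_sum_range]
  refine v.map_sum_le fun n _ => ?_
  rw [map_mul, map_pow]
  simpa using mul_le_mul' (hf n) (pow_le_one' hu n)

theorem Lt.eval (hf : Lt v f γ) {u : K} (hu : v u ≤ 1) : v (f.eval u) < γ := by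
  rw [eval_eq_sum_range]
  refine v.map_sum_lt hf.ne fun n _ => ?_
  rw [map_mul, map_pow]
  exact (mul_le_of_le_one_right' (pow_le_one' hu n)).trans_lt (hf n)

/-- inside the unit disc the value is congruent to the constant term -/
theorem Le.eval_sub (hf : Le v f γ) (h0 : γ ≠ 0) {u : K} (hu : v u < 1) :
    v (f.eval u - f.coeff 0) < γ := by
  have h1 : f.eval u - f.coeff 0 = u * f.divX.eval u := by
    have h3 := congrArg (Polynomial.eval u) (X_mul_divX_add f)
    rw [eval_add, eval_mul, eval_X, eval_C] at h3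
    rw [← h3, add_sub_cancel_right]
  have h2 : Le v f.divX γ := fun n => by
    rw [coeff_divX]
    exact hf _
  rw [h1, map_mul]
  simpa using mul_lt_mul_of_lt_of_le_of_nonneg_of_pos hu (h2.eval hu.le) zero_le
    (zero_lt_iff.2 h0)

/-- outside the unit disc -/
theorem Le.eval_out (hf : Le v f γ) {m : ℕ} (hm : f.natDegree ≤ m) {u : K} (hu : 1 ≤ v u) :
    v (f.eval u) ≤ γ * v u ^ m := by
  rw [eval_eq_sum_range]
  refine v.map_sum_le fun n hn => ?_
  rw [map_mul, map_pow]
  exact mul_le_mul' (hf n)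
    (pow_le_pow_right' hu ((Nat.lt_succ_iff.1 (Finset.mem_range.1 hn)).trans hm))

theorem Lt.eval_out (hf : Lt v f γ) {m : ℕ} (hm : f.natDegree ≤ m) {u : K} (hu : 1 ≤ v u) :
    v (f.eval u) < γ * v u ^ m := by
  have h0 : v u ≠ 0 := fun h => by simp [h] at hu
  rw [eval_eq_sum_range]
  refine v.map_sum_lt (mul_ne_zero hf.ne (pow_ne_zero _ h0)) fun n hn => ?_
  rw [map_mul, map_pow]
  exact mul_lt_mul_of_lt_of_le_of_nonneg_of_pos (hf n)
    (pow_le_pow_right' hu ((Nat.lt_succ_iff.1 (Finset.mem_range.1 hn)).trans hm)) zero_le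
    (pow_pos (zero_lt_iff.2 h0) _)

theorem Le.eval_out_lt (hf : Le v f γ) (h0 : γ ≠ 0) {m : ℕ} (hm : f.degree < m) {u : K}
    (hu : 1 < v u) : v (f.eval u) < γ * v u ^ m := by
  have h1 : v u ≠ 0 := fun h => by simp [h] at hu
  by_cases hf0 : f = 0
  · simpa [hf0] using zero_lt_iff.2 (mul_ne_zero h0 (pow_ne_zero m h1))
  · refine (hf.eval_out le_rfl hu.le).trans_lt ?_
    exact mul_lt_mul_of_pos_left (pow_lt_pow_right₀ hu ((natDegree_lt_iff_degree_lt hf0).2 hm))
      (zero_lt_iff.2 h0)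

/-- the values of nonzero integers are one -/
def Triv (v : Valuation K Γ) : Prop := ∀ n : ℕ, n ≠ 0 → v n = 1

theorem Triv.sub (h : Triv v) {i j : ℕ} (hij : i ≠ j) : v ((i : K) - j) = 1 := by
  rcases lt_or_gt_of_ne hij with h1 | h1
  · rw [v.map_sub_swap, ← Nat.cast_sub h1.le]
    exact h _ (Nat.sub_ne_zero_of_lt h1)
  · rw [← Nat.cast_sub h1.le]
    exact h _ (Nat.sub_ne_zero_of_lt h1)

theorem Triv.le (h : Triv v) (i : ℕ) : v (i : K) ≤ 1 := by
  rcases eq_or_ne i 0 with rfl | h1
  · simp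
  · exact (h i h1).le

theorem Triv.inj (h : Triv v) : Function.Injective (Nat.cast : ℕ → K) := fun i j hij => by
  by_contra h1
  have h2 := h.sub h1
  rw [hij, sub_self, map_zero] at h2
  exact zero_ne_one h2

/-- a bound at enough integers is a bound for the coefficients -/
theorem le_of_nat (hv : Triv v) (s : Finset ℕ) (hs : f.natDegree < s.card)
    (h : ∀ n ∈ s, v (f.eval (n : K)) ≤ γ) : Le v f γ := by
  classical
  have h1 : f.degree < s.card := by
    by_cases hf : f = 0
    · simp [hf]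
    · exact (natDegree_lt_iff_degree_lt hf).1 hs
  rw [Lagrange.eq_interpolate (v := (Nat.cast : ℕ → K)) hv.inj.injOn h1,
    Lagrange.interpolate_apply]
  refine Le.sum _ fun i hi => ?_
  have h2 : Le v (Lagrange.basis s (Nat.cast : ℕ → K) i) 1 := by
    have h3 := Le.prod (v := v) (s.erase i)
      (F := fun j => Lagrange.basisDivisor (i : K) (j : K)) (c := fun _ => 1) fun j hj => by
        have h4 : Le v (X - C (j : K)) 1 := le_X.sub ((le_C _).mono (hv.le j))
        have h5 := h4.C_mul ((i : K) - j)⁻¹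
        rwa [map_inv₀ v, hv.sub (Finset.ne_of_mem_erase hj).symm, inv_one, mul_one] at h5
    simpa [Lagrange.basis] using h3
  simpa using ((le_C _).mono (h i hi)).mul h2

/-- a bound on the unit circle is a bound for the coefficients -/
theorem le_of_eval (hv : Triv v) (h : ∀ u, v u = 1 → v (f.eval u) ≤ γ) : Le v f γ :=
  le_of_nat hv (Finset.Icc 1 (f.natDegree + 1)) (by simp) fun n hn =>
    h _ (hv n (by have := (Finset.mem_Icc.1 hn).1; omega))

/-- a nonzero polynomial has a coefficient of largest value -/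
theorem exists_le (f : K[X]) : ∃ n, Le v f (v (f.coeff n)) := by
  obtain ⟨n, -, hn⟩ := Finset.exists_max_image (Finset.range (f.natDegree + 1))
    (fun n => v (f.coeff n)) ⟨0, by simp⟩
  refine ⟨n, fun m => ?_⟩
  by_cases hm : m ≤ f.natDegree
  · exact hn m (Finset.mem_range.2 (Nat.lt_succ_of_le hm))
  · simp [coeff_eq_zero_of_natDegree_lt (not_le.1 hm)]

/-- **partial fractions do not increase the bound** -/
theorem key {A B Qo Qi : K[X]} {m : ℕ} (hA : A.degree < m) (ho : Lt v (Qo - 1) 1)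
    (hi : Lt v (Qi - X ^ m) 1) (h : Le v (A * Qo + B * Qi) γ) : Le v A γ ∧ Le v B γ := by
  obtain ⟨n, hn⟩ := exists_le (v := v) (A + B * X ^ m)
  set μ := v ((A + B * X ^ m).coeff n) with hμ
  have hA' : Le v A μ := fun k => by
    by_cases hk : k < m
    · have h1 := hn k
      rwa [coeff_add, coeff_mul_X_pow', if_neg (not_le.2 hk), add_zero] at h1
    · rw [coeff_eq_zero_of_degree_lt (hA.trans_le (by exact_mod_cast not_lt.1 hk))]
      simp
  have hB' : Le v B μ := fun k => by
    have h1 := hn (k + m)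
    rwa [coeff_add, coeff_mul_X_pow,
      coeff_eq_zero_of_degree_lt (hA.trans_le (by exact_mod_cast Nat.le_add_left m k)),
      zero_add] at h1
  by_cases hle : μ ≤ γ
  · exact ⟨hA'.mono hle, hB'.mono hle⟩
  · have hlt : γ < μ := not_le.1 hle
    have h0 : μ ≠ 0 := fun h0 => not_lt_zero (h0 ▸ hlt)
    have h2 := hA'.mul_lt ho h0
    have h3 := hB'.mul_lt hi h0
    rw [mul_one] at h2 h3
    have h4 := ((h.lt hlt).sub h2).sub h3
    rw [show A * Qo + B * Qi - A * (Qo - 1) - B * (Qi - X ^ m) = A + B * X ^ m by ring] at h4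
    exact absurd (h4 n) (lt_irrefl _)

/-! ### the substitution `X ↦ a + ρ X` -/

/-- the substitution `X ↦ a + ρ X` -/
noncomputable def sc (a ρ : K) : K[X] →+* K[X] := compRingHom (C a + C ρ * X)

variable {a ρ : K}

theorem sc_apply (f : K[X]) : sc a ρ f = f.comp (C a + C ρ * X) := rfl

@[simp] theorem sc_C (c : K) : sc a ρ (C c) = C c := C_comp

@[simp] theorem sc_X : sc a ρ X = C a + C ρ * X := X_comp

theorem eval_sc (f : K[X]) (u : K) : (sc a ρ f).eval u = f.eval (a + ρ * u) := by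
  simp [sc_apply, eval_comp]

theorem eval_sc' (hρ : ρ ≠ 0) (f : K[X]) (y : K) :
    (sc a ρ f).eval ((y - a) / ρ) = f.eval y := by
  rw [eval_sc, mul_div_cancel₀ _ hρ, add_sub_cancel]

theorem coeff_zero_sc (f : K[X]) : (sc a ρ f).coeff 0 = f.eval a := by
  rw [coeff_zero_eq_eval_zero, eval_sc, mul_zero, add_zero]

theorem natDegree_lin (hρ : ρ ≠ 0) : (C a + C ρ * X : K[X]).natDegree = 1 := by
  rw [add_comm]
  exact natDegree_linear hρ

theorem natDegree_sc (hρ : ρ ≠ 0) (f : K[X]) : (sc a ρ f).natDegree = f.natDegree := by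
  rw [sc_apply, natDegree_comp, natDegree_lin hρ, mul_one]

theorem degree_sc_lt (hρ : ρ ≠ 0) {m : ℕ} (h : f.degree < m) : (sc a ρ f).degree < m := by
  by_cases h0 : f = 0
  · simp [h0]
  · refine degree_le_natDegree.trans_lt ?_
    rw [natDegree_sc hρ]
    exact_mod_cast (natDegree_lt_iff_degree_lt h0).2 h

theorem coeff_sc_top (hρ : ρ ≠ 0) {m : ℕ} (h : f.natDegree ≤ m) :
    (sc a ρ f).coeff m = f.coeff m * ρ ^ m := by
  rcases h.lt_or_eq with h1 | rfl
  · rw [coeff_eq_zero_of_natDegree_lt h1,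
      coeff_eq_zero_of_natDegree_lt ((natDegree_sc hρ f).trans_lt h1), zero_mul]
  · have h2 : (C a + C ρ * X : K[X]).leadingCoeff = ρ := by
      rw [add_comm]
      exact leadingCoeff_linear hρ
    have h3 := leadingCoeff_comp (p := f) (q := C a + C ρ * X)
      (by rw [natDegree_lin hρ]; exact one_ne_zero)
    rw [h2, leadingCoeff, ← sc_apply, natDegree_sc hρ] at h3
    exact h3

end Crest.Agent.X262.Drop30
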