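import Crest.Agent.X262.Node22.Defs
import Crest.Agent.X262.Drop30.Gs
import Crest.Agent.X262.Wd54.Gx
import Crest.Agent.X262.Wd54.Defs

/-!
# Row 262, DROP (helper30): definitions and statements

* `Sim N z m z' m'` : common norming refinement (`Wd54.Lat`);
* `gl ξ₁ n₁ ξ₂ n₂` : the glued configuration, `mk` : its marks;
* `Univ2` : the universal glued pair; `Shp` : a datum with four distinguished marks;
* `g1`, `g2`, `kT`, `Chart` : the chart `K = k(t)` of a type `(m, n, S)`;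
* `Px`, `prm` : the parameters of a glued pair;
* outputs `DropStmt`, `GenStmt`, `OrdStmt`, `Drop2Stmt`, `Uniq2Stmt`; internal `PrmStmt`, `KtStmt`,
  `FgStmt`, `DescStmt`, `ExtStmt`.
-/

set_option autoImplicit false
set_option linter.unusedSectionVars false

noncomputable section

namespace Crest.Agent.X262.Drop30

open Crest.Agent.X277 Crest.Agent.X277.BD Crest.Agent.X262.Vb Crest.Agent.X262.Node22 Polynomial
open Crest.Agent.X277.Pst (Dvs)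
open Crest.Agent.X277.BD.Cyc (Rf plV)

variable {J : Type} [Fintype J] [DecidableEq J] {io : J → Type} [∀ j, Fintype (io j)]
  [∀ j, DecidableEq (io j)]

section Cfg

variable {E : Type} [Field E] [Algebra ℂ E] {I I' M : Type}

/-- common norming refinement, compatible with the marks -/
abbrev Sim (N : ℕ) (z : Cfg io I E) (m : M → I) (z' : Cfg io I' E) (m' : M → I') : Prop :=
  Wd54.Lat N z m z' m'

end Cfg

section Dat

variable {K k : Type} [Field K] [Algebra ℂ K] [Field k] [Algebra ℂ k] {d m n : J → ℕ}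
  {M M₁ M₂ I₁ I₂ : Type}

/-- two data glued at the points `n₁`, `n₂` -/
def gl (ξ₁ : Dat io m I₁ K) (n₁ : I₁) (ξ₂ : Dat io n I₂ K) (n₂ : I₂) : Cfg io (I₁ ⊕ I₂) K :=
  jn (pair ξ₁.cfg ξ₂.cfg) (Sum.inl n₁) (Sum.inr n₂)

/-- inner marks and the node (`none`) -/
abbrev Mi (S : Set M) : Type := Option {i // i ∈ S}

/-- outer marks and the node (`none`) -/
abbrev Mo (S : Set M) : Type := Option {i // i ∉ S}

open Classical in
/-- the marks of the glued configuration -/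
def mk (S : Set M) (g₁ : Mi S → I₁) (g₂ : Mo S → I₂) (i : M) : I₁ ⊕ I₂ :=
  if h : i ∈ S then Sum.inl (g₁ (some ⟨i, h⟩)) else Sum.inr (g₂ (some ⟨i, h⟩))

/-- the marks `p, q, r` are at `∞, 0, 1` -/
def Nml (ξ : Dat io d M K) (p q r : M) : Prop :=
  ξ.x p = none ∧ ξ.x q = some 0 ∧ ξ.x r = some 1

/-- the universal glued pair: `(n₁, a, b) = (∞, 0, 1)`, `(o, n₂, e) = (∞, 0, 1)` -/
structure Univ2 [Fintype M₁] [Fintype M₂] (η₁ : Dat io m M₁ K) (n₁ a b : M₁)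
    (η₂ : Dat io n M₂ K) (o n₂ e : M₂) : Prop where
  nml₁ : Nml η₁ n₁ a b
  nml₂ : Nml η₂ o n₂ e
  par : Par (η₁.pt none) (η₂.pt (some 0))
  gen : IntermediateField.adjoin ℂ (η₁.crd ∪ η₂.crd) = ⊤
  trd : Algebra.trdeg ℂ K + (dimP io : ℕ) =
    (mdim io m (Fintype.card M₁) + mdim io n (Fintype.card M₂) : ℕ)

/-- four distinguished marks at `∞, A, B, R`, with `A`, `R` constants -/
structure Shp (ξ : Dat io d M K) (o a b e : M) (A R : ℂ) (B : K) : Prop where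
  o : ξ.x o = none
  a : ξ.x a = some (algebraMap ℂ K A)
  b : ξ.x b = some B
  e : ξ.x e = some (algebraMap ℂ K R)
  ab : B ≠ algebraMap ℂ K A
  ae : R ≠ A

/-- the type `(m, n, S)` separates `a, b` from `o, e` -/
structure IsTy (d m n : J → ℕ) (S : Set M) (o a b e : M) : Prop where
  add : ∀ j, m j + n j = d j
  a : a ∈ S
  b : b ∈ S
  o : o ∉ S
  e : e ∉ S

/-- the inner form of the chart, in the coordinate `(z - A) / ρ` -/
def g1 (A ρ : K) (m : ℕ) (f : K[X]) : K[X] :=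
  ∑ l ∈ Finset.range (m + 1), monomial l ((sc A ρ f).coeff l / ρ ^ m)

/-- the outer form of the chart, in the coordinate `(z - A) / ρ` -/
def g2 (A ρ : K) (m : ℕ) (f : K[X]) : K[X] := C (ρ ^ m)⁻¹ * (sc A ρ f /ₘ X ^ m)

/-- the coordinate `(z - A) / ρ` -/
def nx (A ρ : K) (x : Option K) : Option K := x.map fun y => (y - A) / ρ

/-- ratios of coefficients -/
def rat (G : (j : J) → io j → K[X]) : Set K :=
  {t | ∃ j i i' l l', t = (G j i).coeff l / (G j i').coeff l'}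

/-- the field of the chart -/
def kT (ξ : Dat io d M K) (A R : ℂ) (B : K) (m : J → ℕ) (S : Set M) : IntermediateField ℂ K :=
  IntermediateField.adjoin ℂ
    (rat (fun j i => g1 (algebraMap ℂ K A) (B - algebraMap ℂ K A) (m j) (ξ.f j i)) ∪
      rat (fun j i => g2 (algebraMap ℂ K A) (algebraMap ℂ K (R - A)) (m j) (ξ.f j i)) ∪
      {t | ∃ i ∈ S, nx (algebraMap ℂ K A) (B - algebraMap ℂ K A) (ξ.x i) = some t} ∪
      {t | ∃ i ∉ S, nx (algebraMap ℂ K A) (algebraMap ℂ K (R - A)) (ξ.x i) = some t})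

/-- `η₁, η₂` over `ι : k → K` are the two sides of the chart -/
structure Chart (ξ : Dat io d M K) (A R : ℂ) (B : K) (S : Set M) (ι : k →ₐ[ℂ] K)
    (η₁ : Dat io m (Mi S) k) (η₂ : Dat io n (Mo S) k) : Prop where
  f : ∃ s : J → K, (∀ j, s j ≠ 0) ∧
    (∀ j i, (η₁.map ι).f j i =
      C (s j) * g1 (algebraMap ℂ K A) (B - algebraMap ℂ K A) (m j) (ξ.f j i)) ∧
    ∀ j i, (η₂.map ι).f j i =
      C (s j) * g2 (algebraMap ℂ K A) (algebraMap ℂ K (R - A)) (m j) (ξ.f j i)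
  n₁ : η₁.x none = none
  n₂ : η₂.x none = some 0
  x₁ : ∀ i, (η₁.map ι).x (some i) = nx (algebraMap ℂ K A) (B - algebraMap ℂ K A) (ξ.x i.1)
  x₂ : ∀ i, (η₂.map ι).x (some i) = nx (algebraMap ℂ K A) (algebraMap ℂ K (R - A)) (ξ.x i.1)

open Classical in
/-- specialisation of a point of the line -/
def spO (p : Pl ℂ K ℂ k) (x : Option K) : Option k :=
  x.bind fun y => if y ∈ p.V.1 then some (p.r y) else none

/-- good reduction: `η` is the coefficientwise reduction of `ξ` -/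
def Spec (p : Pl ℂ K ℂ k) (ξ : Dat io d M K) (η : Dat io d M k) : Prop :=
  (∃ s : J → K, ∀ j i l, s j * (ξ.f j i).coeff l ∈ p.V.1 ∧
    p.r (s j * (ξ.f j i).coeff l) = (η.f j i).coeff l) ∧ ∀ q, η.x q = spO p (ξ.x q)

/-- index set of the parameters of a glued pair -/
abbrev Px (i₀ : (j : J) → io j) (m n : J → ℕ) (n₁ a b : M₁) (o n₂ e : M₂) : Type :=
  (Σ j, io j × Fin (m j)) ⊕ (Σ j, io j × Fin (n j)) ⊕ (Σ j, {i : io j // i ≠ i₀ j}) ⊕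
    {q : M₁ // q ≠ n₁ ∧ q ≠ a ∧ q ≠ b} ⊕ {q : M₂ // q ≠ o ∧ q ≠ n₂ ∧ q ≠ e}

/-- the parameters of a glued pair, normalised by the coordinate `i₀` of the node -/
def prm (i₀ : (j : J) → io j) (m n : J → ℕ) (n₁ a b : M₁) (o n₂ e : M₂)
    (f₁ f₂ : (j : J) → io j → K[X]) (x₁ : M₁ → Option K) (x₂ : M₂ → Option K) :
    Px i₀ m n n₁ a b o n₂ e → K
  | .inl p => (f₁ p.1 p.2.1).coeff p.2.2 / (f₁ p.1 (i₀ p.1)).coeff (m p.1)
  | .inr (.inl p) => (f₂ p.1 p.2.1).coeff (p.2.2 + 1) / (f₂ p.1 (i₀ p.1)).coeff 0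
  | .inr (.inr (.inl p)) => (f₁ p.1 p.2.1).coeff (m p.1) / (f₁ p.1 (i₀ p.1)).coeff (m p.1)
  | .inr (.inr (.inr (.inl q))) => (x₁ q.1).getD 0
  | .inr (.inr (.inr (.inr q))) => (x₂ q.1).getD 0

/-- the parameters of the chart -/
def cprm (ξ : Dat io d M K) (o a b e : M) (A R : ℂ) (B : K) {S : Set M}
    (h : IsTy d m n S o a b e) (i₀ : (j : J) → io j) :
    Px i₀ m n (none : Mi S) (some ⟨a, h.a⟩) (some ⟨b, h.b⟩) (some ⟨o, h.o⟩ : Mo S) none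
      (some ⟨e, h.e⟩) → K :=
  prm i₀ m n _ _ _ _ _ _
    (fun j i => g1 (algebraMap ℂ K A) (B - algebraMap ℂ K A) (m j) (ξ.f j i))
    (fun j i => g2 (algebraMap ℂ K A) (algebraMap ℂ K (R - A)) (m j) (ξ.f j i))
    (fun q => q.elim none fun i => nx (algebraMap ℂ K A) (B - algebraMap ℂ K A) (ξ.x i.1))
    (fun q => q.elim (some 0) fun i => nx (algebraMap ℂ K A) (algebraMap ℂ K (R - A)) (ξ.x i.1))

end Dat

variable (io)

/-- the marked configuration `z` comes, after a finite extension, from a field of transcendence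
degree `< r` -/
def Small (N : ℕ) {E I M : Type} [Field E] [Algebra ℂ E] (z : Cfg io I E) (m : M → I) (r : ℕ) :
    Prop :=
  ∃ (E' k : Type) (_ : Field E') (_ : Algebra ℂ E') (_ : Field k) (_ : Algebra ℂ k)
    (_ : Algebra.EssFiniteType ℂ k) (α : E →ₐ[ℂ] E') (β : k →ₐ[ℂ] E') (I' : Type) (_ : Fintype I')
    (z' : Cfg io I' k) (m' : M → I'), deg α ≠ 0 ∧ Algebra.trdeg ℂ k < r ∧
    Sim N (z.map α) m (z'.map β) m'

/-- **DROP**: if `b` meets `a` at `W`, the reduced configuration is small or `W` is trivial on the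
field of a chart -/
def DropStmt : Prop :=
  ∀ (d : J → ℕ) (N : ℕ) (M I K L : Type) [Fintype M] [Fintype I] [Field K] [Algebra ℂ K] [Field L]
    [Algebra ℂ L] (x₀ : Dat io d M K) (o a b e : M) (A R : ℂ) (B : K), Shp x₀ o a b e A R B →
    ∀ (θ : K →ₐ[ℂ] L) (ξ : Dat io d I L) (g : M → I), ξ.res g = x₀.map θ → ξ.NrmUp N →
    ∀ W : RZ ℂ L, W.v (θ (B - algebraMap ℂ K A)) < 1 →
      Small io N (ξ.cfg.red (plV W)) g (mdim io d (Fintype.card M) - 1) ∨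
      ∃ (m n : J → ℕ) (S : Set M), IsTy d m n S o a b e ∧ ∀ x ∈ kT x₀ A R B m S, θ x ∈ W.1

/-- **GEN**: if `W` is trivial on the field of a chart, the reduced configuration is the glued
configuration of the chart -/
def GenStmt : Prop :=
  ∀ (d m n : J → ℕ) (N : ℕ) (M I K L k k' I₁ I₂ : Type) [Fintype M] [Fintype I] [Fintype I₁]
    [Fintype I₂] [Field K] [Algebra ℂ K] [Field L] [Algebra ℂ L] [Field k] [Algebra ℂ k] [Field k']
    [Algebra ℂ k'] (x₀ : Dat io d M K) (o a b e : M) (A R : ℂ) (B : K) (S : Set M),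
    Shp x₀ o a b e A R B → Function.Injective x₀.x → IsTy d m n S o a b e →
    ∀ (ι : k →ₐ[ℂ] K) (η₁ : Dat io m (Mi S) k) (η₂ : Dat io n (Mo S) k), Chart x₀ A R B S ι η₁ η₂ →
    ∀ (θ : K →ₐ[ℂ] L) (ξ : Dat io d I L) (g : M → I), ξ.res g = x₀.map θ → ξ.NrmUp N →
    ∀ (γ : k →ₐ[ℂ] k') (ξ₁ : Dat io m I₁ k') (ξ₂ : Dat io n I₂ k') (g₁ : Mi S → I₁)
      (g₂ : Mo S → I₂), deg γ ≠ 0 → ξ₁.res g₁ = η₁.map γ → ξ₂.res g₂ = η₂.map γ → ξ₁.NrmUp N →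
      ξ₂.NrmUp N →
    ∀ (W : RZ ℂ L) (hW : ∀ x, (θ.comp ι) x ∈ W.1), W.v (θ (B - algebraMap ℂ K A)) < 1 →
      ∃ (E : Type) (_ : Field E) (_ : Algebra ℂ E) (α : Rf W →ₐ[ℂ] E) (β : k' →ₐ[ℂ] E),
        deg α ≠ 0 ∧ β.comp γ = α.comp (Wd.rt (θ.comp ι) W hW) ∧
        Sim N ((ξ.cfg.red (plV W)).map α) g ((gl ξ₁ (g₁ none) ξ₂ (g₂ none)).map β) (mk S g₁ g₂)

/-- **ORD**: for the universal datum every type has a chart over `kT`, a universal glued pair, and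
exactly one valuation ring `V ⊇ kT` with `|t| < 1`; it is divisorial with uniformiser `t` and
residue field `kT`, and it determines the type -/
def OrdStmt : Prop :=
  ∀ (d : J → ℕ) (M K : Type) [Fintype M] [Field K] [Algebra ℂ K] (x₀ : Dat io d M K) (o a b e : M)
    (A R : ℂ) (B : K), Shp x₀ o a b e A R B → x₀.Univ →
    (∀ (m n : J → ℕ) (S : Set M) [Fintype (Mi S)] [Fintype (Mo S)] (h : IsTy d m n S o a b e),
      (∃ (η₁ : Dat io m (Mi S) (kT x₀ A R B m S)) (η₂ : Dat io n (Mo S) (kT x₀ A R B m S)),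
        Chart x₀ A R B S (kT x₀ A R B m S).val η₁ η₂ ∧
        Univ2 η₁ none (some ⟨a, h.a⟩) (some ⟨b, h.b⟩) η₂ (some ⟨o, h.o⟩) none (some ⟨e, h.e⟩)) ∧
      ∃ (V : RZ ℂ K) (hV : ∀ x, (kT x₀ A R B m S).val x ∈ V.1), Dvs V ∧
        Geo.od V (pr ℂ (B - algebraMap ℂ K A)) = -1 ∧
        Function.Bijective (Wd.rt (kT x₀ A R B m S).val V hV) ∧
        ∀ V' : RZ ℂ K, (∀ x ∈ kT x₀ A R B m S, x ∈ V'.1) → V'.v (B - algebraMap ℂ K A) < 1 →
          V' = V) ∧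
    ∀ (m n m' n' : J → ℕ) (S S' : Set M), IsTy d m n S o a b e → IsTy d m' n' S' o a b e →
      ∀ V : RZ ℂ K, V.v (B - algebraMap ℂ K A) < 1 → (∀ x ∈ kT x₀ A R B m S, x ∈ V.1) →
        (∀ x ∈ kT x₀ A R B m' S', x ∈ V.1) → m = m' ∧ S = S'

/-- **DROP for pairs** glued only at `W` -/
def Drop2Stmt : Prop :=
  ∀ (m n : J → ℕ) (N : ℕ) (M₁ M₂ I₁ I₂ L : Type) [Fintype M₁] [Fintype M₂] [Fintype I₁]
    [Fintype I₂] [Field L] [Algebra ℂ L] (ξ₁ : Dat io m I₁ L) (ξ₂ : Dat io n I₂ L) (g₁ : M₁ → I₁)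
    (g₂ : M₂ → I₂) (n₁ a b : M₁) (o n₂ e : M₂), Nml (ξ₁.res g₁) n₁ a b → Nml (ξ₂.res g₂) o n₂ e →
    ξ₁.NrmUp N → ξ₂.NrmUp N → ∀ W : RZ ℂ L,
    Par ((ξ₁.cfg.red (plV W)).y (g₁ n₁)) ((ξ₂.cfg.red (plV W)).y (g₂ n₂)) →
      Small io N (jn ((pair ξ₁.cfg ξ₂.cfg).red (plV W)) (Sum.inl (g₁ n₁)) (Sum.inr (g₂ n₂)))
        (Sum.map g₁ g₂) (mdim io m (Fintype.card M₁) + mdim io n (Fintype.card M₂) - dimP io) ∨
      ∃ (k : Type) (_ : Field k) (_ : Algebra ℂ k) (β₀ : k →ₐ[ℂ] Rf W) (η₁ : Dat io m M₁ k)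
        (η₂ : Dat io n M₂ k), Univ2 η₁ n₁ a b η₂ o n₂ e ∧ Spec (plV W) (ξ₁.res g₁) (η₁.map β₀) ∧
        Spec (plV W) (ξ₂.res g₂) (η₂.map β₀) ∧
        ∀ (k' P₁ P₂ : Type) [Field k'] [Algebra ℂ k'] [Fintype P₁] [Fintype P₂] (γ : k →ₐ[ℂ] k')
          (ζ₁ : Dat io m P₁ k') (ζ₂ : Dat io n P₂ k') (h₁ : M₁ → P₁) (h₂ : M₂ → P₂), deg γ ≠ 0 →
          ζ₁.res h₁ = η₁.map γ → ζ₂.res h₂ = η₂.map γ → ζ₁.NrmUp N → ζ₂.NrmUp N →
          ∃ (E : Type) (_ : Field E) (_ : Algebra ℂ E) (α : Rf W →ₐ[ℂ] E) (β : k' →ₐ[ℂ] E),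
            deg α ≠ 0 ∧ β.comp γ = α.comp β₀ ∧
            Sim N ((jn ((pair ξ₁.cfg ξ₂.cfg).red (plV W)) (Sum.inl (g₁ n₁))
              (Sum.inr (g₂ n₂))).map α) (Sum.map g₁ g₂)
              ((gl ζ₁ (h₁ n₁) ζ₂ (h₂ n₂)).map β) (Sum.map h₁ h₂)

/-- **uniqueness** of the universal glued pair, up to scalars -/
def Uniq2Stmt : Prop :=
  ∀ (m n : J → ℕ) (M₁ M₂ k k' : Type) [Fintype M₁] [Fintype M₂] [Field k] [Algebra ℂ k] [Field k']
    [Algebra ℂ k'] (n₁ a b : M₁) (o n₂ e : M₂) (η₁ : Dat io m M₁ k) (η₂ : Dat io n M₂ k)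
    (ζ₁ : Dat io m M₁ k') (ζ₂ : Dat io n M₂ k'), Univ2 η₁ n₁ a b η₂ o n₂ e →
    Univ2 ζ₁ n₁ a b ζ₂ o n₂ e →
    ∃ (φ : k ≃ₐ[ℂ] k') (s₁ s₂ : J → k'), (∀ j, s₁ j ≠ 0) ∧ (∀ j, s₂ j ≠ 0) ∧
      (∀ j i, ζ₁.f j i = C (s₁ j) * (η₁.map (φ : k →ₐ[ℂ] k')).f j i) ∧
      (∀ j i, ζ₂.f j i = C (s₂ j) * (η₂.map (φ : k →ₐ[ℂ] k')).f j i) ∧
      ζ₁.x = (η₁.map (φ : k →ₐ[ℂ] k')).x ∧ ζ₂.x = (η₂.map (φ : k →ₐ[ℂ] k')).x

/-! ### internal statements -/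

/-- a glued pair is defined over the field of its parameters -/
def PrmStmt : Prop :=
  ∀ (m n : J → ℕ) (M₁ M₂ K : Type) [Fintype M₁] [Fintype M₂] [Field K] [Algebra ℂ K]
    (η₁ : Dat io m M₁ K) (η₂ : Dat io n M₂ K) (n₁ a b : M₁) (o n₂ e : M₂) (i₀ : (j : J) → io j),
    Nml η₁ n₁ a b → Nml η₂ o n₂ e → Par (η₁.pt none) (η₂.pt (some 0)) →
    (∀ j, (η₁.f j (i₀ j)).coeff (m j) ≠ 0) →
    Nat.card (Px i₀ m n n₁ a b o n₂ e) + dimP io =
      mdim io m (Fintype.card M₁) + mdim io n (Fintype.card M₂) ∧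
    ∀ k : IntermediateField ℂ K,
      k = IntermediateField.adjoin ℂ (Set.range (prm i₀ m n n₁ a b o n₂ e η₁.f η₂.f η₁.x η₂.x)) →
      ∃ (ζ₁ : Dat io m M₁ k) (ζ₂ : Dat io n M₂ k),
        (∀ j i, (ζ₁.map k.val).f j i = C ((η₁.f j (i₀ j)).coeff (m j))⁻¹ * η₁.f j i) ∧
        (∀ j i, (ζ₂.map k.val).f j i = C ((η₂.f j (i₀ j)).coeff 0)⁻¹ * η₂.f j i) ∧
        (ζ₁.map k.val).x = η₁.x ∧ (ζ₂.map k.val).x = η₂.x ∧ ζ₁.pt none = ζ₂.pt (some 0) ∧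
        (AlgebraicIndependent ℂ (prm i₀ m n n₁ a b o n₂ e η₁.f η₂.f η₁.x η₂.x) →
          Univ2 ζ₁ n₁ a b ζ₂ o n₂ e)

/-- the field of the chart is generated by the parameters of the chart -/
def KtStmt : Prop :=
  ∀ (d m n : J → ℕ) (M K : Type) [Field K] [Algebra ℂ K] (ξ : Dat io d M K) (o a b e : M)
    (A R : ℂ) (B : K) (S : Set M) (h : IsTy d m n S o a b e) (i₀ : (j : J) → io j),
    Shp ξ o a b e A R B →
    (∀ j, (g1 (algebraMap ℂ K A) (B - algebraMap ℂ K A) (m j) (ξ.f j (i₀ j))).coeff (m j) ≠ 0) →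
    kT ξ A R B m S = IntermediateField.adjoin ℂ (Set.range (cprm ξ o a b e A R B h i₀))

/-- a configuration is defined over a finitely generated subfield -/
def FgStmt : Prop :=
  ∀ (N : ℕ) (I E : Type) [Fintype I] [Field E] [Algebra ℂ E] (z : Cfg io I E),
    ∃ s : Finset E, ∀ k : IntermediateField ℂ E, (s : Set E) ⊆ k → ∃ z₀ : Cfg io I k,
      (z₀.map k.val).y = z.y ∧ ∀ κ : J → ℕ, (∀ j, κ j ≤ N) → (z₀.map k.val).V κ = z.V κ

/-- `Sim` descends from an algebraic extension to a finite one -/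
def DescStmt : Prop :=
  ∀ (N : ℕ) (M I I' E₀ k E : Type) [Fintype I] [Fintype I'] [Field E₀] [Algebra ℂ E₀] [Field k]
    [Algebra ℂ k] [Field E] [Algebra ℂ E] (α : E₀ →ₐ[ℂ] E) (β : k →ₐ[ℂ] E) (z : Cfg io I E₀)
    (m : M → I) (z' : Cfg io I' k) (m' : M → I') (s : Finset E),
    (∀ x : E, IsAlgebraic α.fieldRange x) →
    β.fieldRange ≤ IntermediateField.adjoin ℂ (Set.range α ∪ s) →
    Sim N (z.map α) m (z'.map β) m' →
    ∃ (E' : IntermediateField ℂ E) (α' : E₀ →ₐ[ℂ] E') (β' : k →ₐ[ℂ] E'), deg α' ≠ 0 ∧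
      E'.val.comp α' = α ∧ E'.val.comp β' = β ∧ Sim N (z.map α') m (z'.map β') m'

/-- extension of a valuation ring to the algebraic closure -/
def ExtStmt : Prop :=
  ∀ (L : Type) [Field L] [Algebra ℂ L] (W : RZ ℂ L), ∃ (K : Type) (_ : Field K) (_ : Algebra ℂ K)
    (_ : IsAlgClosed K) (ι : L →ₐ[ℂ] K) (V : RZ ℂ K) (α : Rf W →ₐ[ℂ] Rf V), Wd.dn ι V = W ∧
    (∀ x, α ((plV W).r x) = (plV V).r (ι x)) ∧ (∀ x : Rf V, IsAlgebraic α.fieldRange x) ∧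
    ∀ (k k' : Type) [Field k] [Algebra ℂ k] [Field k'] [Algebra ℂ k'] (γ : k →ₐ[ℂ] k')
      (δ : k →ₐ[ℂ] K), deg γ ≠ 0 → ∃ δ' : k' →ₐ[ℂ] K, δ'.comp γ = δ ∧
        ((∀ x, δ x ∈ V.1) → ∀ x, δ' x ∈ V.1)

end Crest.Agent.X262.Drop30
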