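import Crest.Agent.X262.Drop30.Core
import Crest.Agent.X262.Drop30.Cht
import Crest.Agent.X262.Cl49.Np
import Crest.Agent.X262.DropD.Main

/-!
# Row 262, DROP (helper30), part 6: `genStmt`
-/

set_option autoImplicit false
set_option linter.unusedSectionVars false

noncomputable section

namespace Crest.Agent.X262.Drop30

open Crest.Agent.X277 Crest.Agent.X277.BD Crest.Agent.X262.Vb Crest.Agent.X262.Node22 Polynomial
open Crest.Agent.X277.BD.Cyc (Rf plV)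
open Crest.Agent.X262.Bub96 (hv)
open Crest.Agent.X262.Wd54 (NP Lat)
open Crest.Agent.X262.Vb.Cfg (GeqN Geq)
open Crest.Agent.X262.Hb (LP)

variable {J : Type} [Fintype J] [DecidableEq J] {io : J → Type} [∀ j, Fintype (io j)]
  [∀ j, DecidableEq (io j)] {K L k : Type} [Field K] [Algebra ℂ K] [Field L] [Algebra ℂ L]
  [Field k] [Algebra ℂ k] {I I₁ I₂ M : Type} [Fintype I] [Fintype I₁] [Fintype I₂] {N : ℕ}
  {d m n : J → ℕ} {V : RZ ℂ K}

theorem dmap_f (α : k →ₐ[ℂ] K) (ξ : Dat io d M k) (j : J) (i : io j) :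
    (ξ.map α).f j i = (ξ.f j i).map (α : k →+* K) := rfl

theorem dmap_x (α : k →ₐ[ℂ] K) (ξ : Dat io d M k) (q : M) : (ξ.map α).x q = (ξ.x q).map α := rfl

theorem v_triv {δ : k →ₐ[ℂ] K} (h : ∀ x, δ x ∈ V.1) {x : k} (hx : x ≠ 0) : V.v (δ x) = 1 :=
  Wd.v_of_mem h hx

theorem gr_of_cp {δ : k →ₐ[ℂ] K} (h : ∀ x, δ x ∈ V.1) {f : (j : J) → io j → k[X]} (hf : Cp d f)
    (j : J) : Gr V.v (d j) fun i => (f j i).map (δ : k →+* K) := by
  have h1 : ∀ g : k[X], Le V.v (g.map (δ : k →+* K)) 1 := fun g l => by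
    rw [coeff_map]
    exact RZ.le_one_iff.2 (h _)
  obtain ⟨A, hA⟩ := Ideal.mem_span_range_iff_exists_fun.1 ((Ideal.eq_top_iff_one _).1 (hf.2.2 j))
  refine ⟨fun i => h1 _, fun i => natDegree_map_le.trans (hf.1 j i), (hf.2.1 j).imp fun i hi => ?_,
    fun i => (A i).map (δ : k →+* K), fun i => h1 _, ?_⟩
  · rw [coeff_map]
    exact v_triv h hi
  · simpa only [Polynomial.map_sum, Polynomial.map_mul, Polynomial.map_one] using
      congrArg (Polynomial.map (δ : k →+* K)) hA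

/-- reduction after an extension of the field -/
theorem red_ext {W : RZ ℂ L} {ι : L →ₐ[ℂ] K} {α : Rf W →ₐ[ℂ] Rf V}
    (h : ∀ x, α ((plV W).r x) = (plV V).r (ι x)) {z : Cfg io I L} (hz : z.NZ) :
    Geq ((z.map ι).red (plV V)) ((z.red (plV W)).map α) := by
  have h1 : (LP.hom ι).comp (LP.at V) = (LP.at W).comp (LP.hom α) := LP.ext fun x => by
    rw [LP.r_comp, LP.r_comp, LP.r_hom, LP.r_hom]
    exact (h x).symm
  have h2 := Cfg.red_map ι (LP.at V) hz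
  rw [h1] at h2
  exact h2.symm.trans (Cfg.map_red (LP.at W) α hz)

/-- reduction of a configuration defined over a subfield of the valuation ring -/
theorem red_triv {δ : k →ₐ[ℂ] K} (h : ∀ x, δ x ∈ V.1) {z : Cfg io I k} (hz : z.NZ) :
    Geq ((z.map δ).red (plV V)) (z.map (Wd.rt δ V h)) := by
  have h1 : (LP.hom δ).comp (LP.at V) = LP.hom (Wd.rt δ V h) := LP.ext fun x => by
    rw [LP.r_comp, LP.r_hom, LP.r_hom]
    rfl
  have h2 := Cfg.red_map δ (LP.at V) hz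
  rw [h1] at h2
  exact h2.symm.trans (Cfg.red_hom _ hz)

theorem gl_map (δ : k →ₐ[ℂ] K) {ξ₁ : Dat io m I₁ k} {ξ₂ : Dat io n I₂ k} {n₁ : I₁} {n₂ : I₂}
    (h : Par (ξ₁.cfg.y n₁) (ξ₂.cfg.y n₂)) :
    gl (ξ₁.map δ) n₁ (ξ₂.map δ) n₂ = (gl ξ₁ n₁ ξ₂ n₂).map δ := by
  rw [gl, gl, Cl49.jn_map δ (z := pair ξ₁.cfg ξ₂.cfg) (q := .inl n₁) (q' := .inr n₂) h
    (nz_cfg ξ₂ n₂), Cl49.pair_map, Vb37.cfg_map, Vb37.cfg_map]

theorem range_le {k' E E₀ : Type} [Field k'] [Algebra ℂ k'] [Field E] [Algebra ℂ E] [Field E₀]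
    [Algebra ℂ E₀] {γ : k →ₐ[ℂ] k'} (hγ : deg γ ≠ 0) {β : k' →ₐ[ℂ] E} {α : E₀ →ₐ[ℂ] E}
    (h : ∀ x, ∃ y, β (γ x) = α y) :
    ∃ s : Finset E, β.fieldRange ≤ IntermediateField.adjoin ℂ (Set.range α ∪ s) := by
  classical
  let := γ.toRingHom.toAlgebra
  have : Module.Finite k k' := Module.finite_of_finrank_pos (Nat.pos_of_ne_zero hγ)
  obtain ⟨s, hs⟩ := Module.Finite.fg_top (R := k) (M := k')
  refine ⟨s.image β, ?_⟩
  rintro _ ⟨x, rfl⟩
  have hx : x ∈ Submodule.span k (s : Set k') := hs ▸ Submodule.mem_top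
  change β x ∈ _
  induction hx using Submodule.span_induction with
  | mem x hx => exact IntermediateField.subset_adjoin _ _ (Or.inr (by simpa using ⟨x, hx, rfl⟩))
  | zero => rw [map_zero]; exact zero_mem _
  | add x y _ _ hx hy => rw [map_add]; exact add_mem hx hy
  | smul c x _ hx =>
    obtain ⟨y, hy⟩ := h c
    rw [show c • x = γ c * x from rfl, map_mul, hy]
    exact mul_mem (IntermediateField.subset_adjoin _ _ (Or.inl ⟨y, rfl⟩)) hx

theorem ins_of_nx {a ρ ρ2 : K} (hρ : ρ ≠ 0) (h : V.v ρ < V.v ρ2) {x : Option K} {u : K}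
    (hx : nx a ρ x = some u) (hu : V.v u ≤ 1) : Ins V a ρ2 x := by
  cases x with
  | none => cases hx
  | some t =>
    obtain rfl : (t - a) / ρ = u := Option.some.inj hx
    exact ⟨t, rfl, ((div_le_one₀ (RZ.pos hρ)).1 (map_div₀ V.v _ _ ▸ hu)).trans_lt h⟩

/-- **GEN** -/
theorem genStmt : GenStmt io := by
  intro d m n N M I K₀ L k k' I₁ I₂ _ _ _ _ _ _ _ _ _ _ _ _ x₀ o a b e A R B S hsh hinj hty ι η₁ η₂
    hch θ ξ g hξ hN γ ξ₁ ξ₂ g₁ g₂ hγ r₁ r₂ hN₁ hN₂ W hW hlt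
  obtain ⟨K, _, _, _, ι₀, V, α, hV, hα, halg, hlift⟩ := DropD.extStmt L W
  set φ : K₀ →ₐ[ℂ] K := ι₀.comp θ with hφ
  have hδ : ∀ x, (φ.comp ι) x ∈ V.1 := fun x => (hV ▸ hW x : _ ∈ (Wd.dn ι₀ V).1)
  obtain ⟨δ, hδγ, hδV⟩ := hlift k k' γ (φ.comp ι) hγ
  replace hδV := hδV hδ
  obtain ⟨s, hs, f₁, f₂⟩ := hch.f
  set a₀ : K := algebraMap ℂ K A with ha₀
  set ρ : K := φ (B - algebraMap ℂ K₀ A) with hρ'
  set R₀ : K := algebraMap ℂ K (R - A) with hR₀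
  have hρ : ρ ≠ 0 := (map_ne_zero φ).2 (sub_ne_zero.2 hsh.ab)
  have hR : V.v R₀ = 1 := V.v_alg (sub_ne_zero.2 hsh.ae)
  have hR' : R₀ ≠ 0 := RZ.ne_zero_iff.1 (hR ▸ one_ne_zero)
  have hρ1 : V.v ρ < V.v R₀ := hR ▸ (Wd.dn_lt_one (α := ι₀)).1 (hV.symm ▸ hlt)
  obtain ⟨ρ1, ρ2, y, h1, h2, h3, h4, h5, -⟩ := exists_ann hρ hρ1 a₀ ∅
  have hf : ∀ j i, (ξ.map ι₀).f j i = (x₀.f j i).map (φ : K₀ →+* K) := fun j i => by
    have h6 : ξ.f j i = (x₀.f j i).map (θ : K₀ →+* L) := congrFun (congrFun (congrArg Dat.f hξ) j) i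
    rw [dmap_f, h6, Polynomial.map_map]
    rfl
  have hx : ∀ i, (ξ.map ι₀).x (g i) = (x₀.x i).map φ := fun i => by
    have h6 : ξ.x (g i) = (x₀.x i).map θ := congrFun (congrArg Dat.x hξ) i
    rw [dmap_x, h6, Option.map_map]
    rfl
  have d₁ : (ξ₁.map δ).res g₁ = (η₁.map ι).map φ := by
    rw [← Vb37.dmap_res, r₁, Vb37.dmap_map, Vb37.dmap_map, hδγ]
  have d₂ : (ξ₂.map δ).res g₂ = (η₂.map ι).map φ := by
    rw [← Vb37.dmap_res, r₂, Vb37.dmap_map, Vb37.dmap_map, hδγ]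
  have e₁ : ∀ j i, (ξ₁.map δ).f j i = g1 a₀ ρ (m j) (C (φ (s j)) * (ξ.map ι₀).f j i) :=
    fun j i => by
      rw [show (ξ₁.map δ).f j i = ((η₁.map ι).f j i).map (φ : K₀ →+* K) from
        congrFun (congrFun (congrArg Dat.f d₁) j) i, f₁, Polynomial.map_mul, map_C, g1_map,
        g1_C_mul, hf]
      simp only [RingHom.coe_coe, AlgHom.commutes]
      rfl
  have e₂ : ∀ j i, (ξ₂.map δ).f j i = g2 a₀ R₀ (m j) (C (φ (s j)) * (ξ.map ι₀).f j i) :=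
    fun j i => by
      rw [show (ξ₂.map δ).f j i = ((η₂.map ι).f j i).map (φ : K₀ →+* K) from
        congrFun (congrFun (congrArg Dat.f d₂) j) i, f₂, Polynomial.map_mul, map_C, g2_map,
        g2_C_mul, hf]
      simp only [RingHom.coe_coe, AlgHom.commutes]
      rfl
  choose F1 F2 hS e₃ e₄ using fun j => sd_chart (v := V.v) (a := a₀) (m := m j) (e := n j)
    (F := fun i => C (φ (s j)) * (ξ.map ι₀).f j i) hρ h2 (h3.trans h4) h5
    (fun i => (natDegree_C_mul_le _ _).trans (hty.add j ▸ (ξ.map ι₀).cp.1 j i))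
    (by simp only [← e₁]; exact gr_of_cp hδV ξ₁.cp j)
    (by simp only [← e₂]; exact gr_of_cp hδV ξ₂.cp j)
  have x₁ : ∀ q, (ξ₁.map δ).x (g₁ q) = ((η₁.map ι).x q).map φ := congrFun (congrArg Dat.x d₁)
  have x₂ : ∀ q, (ξ₂.map δ).x (g₂ q) = ((η₂.map ι).x q).map φ := congrFun (congrArg Dat.x d₂)
  have n₁ : (ξ₁.map δ).x (g₁ none) = none := by rw [x₁, dmap_x, hch.n₁]; rfl
  have n₂ : (ξ₂.map δ).x (g₂ none) = some 0 := by rw [x₂, dmap_x, hch.n₂]; simp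
  have hL := lat_side hty.add (ξ := ξ.map ι₀) (fun j => (map_ne_zero φ).2 (hs j)) hS h1 h3 h4
    (ζ₁ := ξ₁.map δ) (ζ₂ := ξ₂.map δ) (s₁ := fun j => (ρ ^ m j)⁻¹) (s₂ := fun _ => 1)
    (fun j => inv_ne_zero (pow_ne_zero _ hρ)) (fun _ => one_ne_zero) hρ hR'
    (fun j i => (e₁ j i).trans (e₃ j i)) (fun j i => by rw [e₂, e₄, C_1, one_mul])
    (Vb37.nrmUp_map hN _) (Vb37.nrmUp_map hN₁ _) (Vb37.nrmUp_map hN₂ _) n₁ n₂ g (mk S g₁ g₂)
    fun i => by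
      unfold mk
      split_ifs with hi
      · have h6 : (ξ₁.map δ).x (g₁ (some ⟨i, hi⟩)) = nx a₀ ρ ((ξ.map ι₀).x (g i)) := by
          rw [x₁, hch.x₁, hx]
          exact (nx_map (φ : K₀ →+* K) _ _ _).trans (by simp [ha₀, hρ'])
        refine ⟨?_, h6⟩
        rcases h7 : ξ₁.x (g₁ (some ⟨i, hi⟩)) with _ | u
        · have h8 : x₀.x i = none := by simpa [dmap_x δ, h7, hx, nx] using h6
          exact (hty.o (hinj (h8.trans hsh.o.symm) ▸ hi)).elim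
        · exact ins_of_nx hρ (h2.trans (h3.trans h4)) (u := δ u) (by rw [← h6, dmap_x, h7]; rfl)
            (RZ.le_one_iff.2 (hδV u))
      · have h6 : (ξ₂.map δ).x (g₂ (some ⟨i, hi⟩)) = nx a₀ R₀ ((ξ.map ι₀).x (g i)) := by
          rw [x₂, hch.x₂, hx]
          exact (nx_map (φ : K₀ →+* K) _ _ _).trans (by simp [ha₀, hR₀])
        refine ⟨fun t ht => ?_, h6⟩
        rw [ht] at h6
        obtain ⟨u, -, h7⟩ := Option.map_eq_some_iff.1 h6
        have h8 : u ≠ 0 := fun h0 => hi (by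
          have h9 : t = a₀ := by
            rw [h0, map_zero, eq_comm, div_eq_zero_iff, or_iff_left hR', sub_eq_zero] at h7
            exact h7
          rw [hx, h9, ha₀, ← φ.commutes, ← Option.map_some, ← hsh.a] at ht
          exact (hinj (Option.map_injective φ.injective ht)).symm ▸ hty.a)
        have h9 := v_triv hδV h8
        rw [h7, map_div₀, hR, div_one] at h9
        exact h9 ▸ hR ▸ (h3.trans h4).trans h5
  have hP : Par (ξ₁.cfg.y (g₁ none)) (ξ₂.cfg.y (g₂ none)) := by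
    refine DropD.par_desc δ (nz_cfg ξ₂ _) ?_
    change Par ((ξ₁.cfg.map δ).y _) ((ξ₂.cfg.map δ).y _)
    rw [← Vb37.cfg_map, ← Vb37.cfg_map]
    change Par ((ξ₁.map δ).pt ((ξ₁.map δ).x _)) ((ξ₂.map δ).pt ((ξ₂.map δ).x _))
    rw [n₁, n₂, show (ξ₁.map δ).pt none = (ξ₂.map δ).pt (some 0) from funext fun j =>
      funext fun i => by
        change ((ξ₁.map δ).f j i).coeff (m j) = ((ξ₂.map δ).f j i).eval 0
        rw [e₁, e₂, e₃, e₄, coeff_C_mul, coeff_sc_top hρ ((hS j).rel i).d1, eval_sc, mul_zero,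
          add_zero, ← ((hS j).rel i).node, mul_comm _ (ρ ^ m j),
          inv_mul_cancel_left₀ (pow_ne_zero _ hρ)]]
    exact Par.refl _
  rw [Vb37.cfg_map, gl_map δ hP] at hL
  have hc : (Wd.rt δ V hδV).comp γ = α.comp (Wd.rt (θ.comp ι) W hW) := AlgHom.ext fun x =>
    (congrArg (plV V).r (DFunLike.congr_fun hδγ x)).trans (hα _).symm
  obtain ⟨t, ht⟩ := range_le hγ (β := Wd.rt δ V hδV) (α := α) fun x => ⟨_, DFunLike.congr_fun hc x⟩
  obtain ⟨E', α', β', q1, q2, q3, q4⟩ := DropD.descStmt N M I (I₁ ⊕ I₂) (Rf W) k' (Rf V) α _ _ g _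
    (mk S g₁ g₂) t halg ht (lat_congr hL ((red_ext hα (nz_cfg ξ)).geqN N)
      ((red_triv hδV (nz_gl _ _)).geqN N))
  refine ⟨E', inferInstance, inferInstance, α', β', q1, AlgHom.ext fun x => E'.val.injective ?_, q4⟩
  exact (DFunLike.congr_fun q3 _).trans ((DFunLike.congr_fun hc x).trans
    (DFunLike.congr_fun q2 _).symm)

end Crest.Agent.X262.Drop30
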